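import Vale.Agent.P301.H599.BE.End3
import Vale.Agent.P301.H862.KZero

/-!
# P301, package BEAU-END: `χ(𝒪) > 0`
-/

open scoped Manifold ContDiff ComplexOrder Topology Matrix
open Set Filter Metric
open Vale.Agent.P272.K Vale.Agent.P272.K.C2 Vale.Agent.P272.K.AMP
open Vale.Agent.P299 Vale.Agent.P299.H954 Vale.Agent.P301.H599 Vale.Agent.P301.H450
open Vale.Agent.P299.IX Vale.Agent.P299.IX.Fock Vale.Agent.P301.H85

set_option linter.all false

noncomputable section

namespace Vale.Agent.P301.H599.BE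

variable {d : ℕ} {X : Type} [TopologicalSpace X] [ChartedSpace (Cm d) X]
  {w w0 s θ : Chart d X → Cm d → Matrix (Fin d) (Fin d) ℂ}
  [IsManifold 𝓘(ℂ, Cm d) ω X] [T2Space X] [CompactSpace X]

theorem finrank_zero (hs : IsHolTwoForm s) [Nonempty X] [ConnectedSpace X] :
    Module.finrank ℂ (HolF d X 0) = 1 := by
  obtain ⟨x₀⟩ : Nonempty X := inferInstance
  have hx₀ : At (chartAt (Cm d) x₀ : Chart d X) x₀ := ⟨chart_mem_atlas _ _, mem_chart_source _ _⟩
  refine finrank_HolF_eq_one (isHolF_sPow hs 0) ⟨_, x₀, hx₀, ?_⟩ fun g hg => ?_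
  · rw [sPow_zero]
    intro h
    have := congrFun h ∅
    simp [ev] at this
  · obtain ⟨a, ha⟩ := hg.zero_const
    exact ⟨a, fun e x hx => by rw [ha e x hx, sPow_zero]⟩

/-- **`χ(𝒪_X) > 0`** for a simply connected compact Kähler manifold `X` with `H⁰(Ω²) = ℂ s`, `s`
symplectic, which carries a class `θ` with `q(θ, θ) = 0` and `q(w, θ) ≠ 0`. -/
theorem chi0_pos [SimplyConnectedSpace X] (h : IsSymplectic d X w0 s) (hw : IsKahler w)
    (hθ : IsReal11 θ) (hqq : q s θ θ = 0) (hqw : q s w θ ≠ 0) : 0 < H862.HB.chi0 d X := by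
  have h0 : Module.finrank ℂ (HolF d X 0) = 1 := finrank_zero h.form
  unfold H862.HB.chi0
  refine Finset.sum_pos' (fun p _ => ?_) ⟨0, by simp, by rw [h0]; norm_num⟩
  rcases Nat.even_or_odd p with hp | hp
  · rw [hp.neg_one_pow, one_mul]
    positivity
  · rw [HolF_eq_bot fun g hg e x hx => odd_zero h hw hθ hqq hqw hp hg hx, finrank_bot]
    simp

theorem chi0_ne_zero [SimplyConnectedSpace X] (h : IsSymplectic d X w s) (hθ : IsReal11 θ)
    (hqq : q s θ θ = 0) (hqw : q s w θ ≠ 0) : H862.HB.chi0 d X ≠ 0 :=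
  (chi0_pos h h.kahler hθ hqq hqw).ne'

theorem chi0_pos_of_nef [SimplyConnectedSpace X] (hd : 0 < d) (h : IsSymplectic d X w s)
    (hθ : IsReal11 θ) (hn : IsNef w θ) (hne : ¬ IsExact θ) (hqq : q s θ θ = 0) :
    0 < H862.HB.chi0 d X := by
  obtain ⟨u, κ, hu, hk⟩ := exists_rf h h.kahler
  have h1 := q_nef_pos hd h hk h.kahler hθ hn hne
  rw [q_symm (SData.of h hk)] at h1
  exact chi0_pos h hk.kahler hθ hqq h1.ne'

end Vale.Agent.P301.H599.BE
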