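import Vale.Agent.P301.H599.BE.Sym

/-!
# P301: a nondegenerate symmetric holomorphic tensor makes the metric flat
-/

open scoped Manifold ContDiff ComplexOrder Topology Matrix
open Vale.Agent.P272.K Vale.Agent.P272.K.C2 Vale.Agent.P272.K.AMP
open Vale.Agent.P299 Vale.Agent.P299.H954 Vale.Agent.P301.H599 Vale.Agent.P301.H450

set_option linter.all false

noncomputable section

namespace Vale.Agent.P301.H599.BE

variable {d : ℕ}

/-- the algebra of the curvature tensor of a hyperkähler metric with a parallel symmetric tensor -/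
theorem curv_alg {R : Fin d → Matrix (Fin d) (Fin d) ℂ} {s C : Matrix (Fin d) (Fin d) ℂ}
    (hs : sᵀ = -s) (hsd : IsUnit s.det) (hC : Cᵀ = C) (hCd : IsUnit C.det)
    (h1 : ∀ k, R k * s + s * (R k)ᵀ = 0) (h2 : ∀ k, R k * C + C * (R k)ᵀ = 0)
    (h3 : ∀ k i m, R k i m = R i k m) (k : Fin d) : R k = 0 := by
  have f1 : s⁻¹ * s = 1 := Matrix.nonsing_inv_mul _ hsd
  have f2 : s * s⁻¹ = 1 := Matrix.mul_nonsing_inv _ hsd
  -- the tensor `S`
  set S : Fin d → Matrix (Fin d) (Fin d) ℂ := fun k => R k * s with hS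
  have hSij : ∀ k i j, S k i j = S k j i := by
    intro k i j
    have : (S k)ᵀ = S k := by
      rw [hS]
      simp only
      rw [Matrix.transpose_mul, hs, Matrix.neg_mul, eq_comm, eq_neg_iff_add_eq_zero]
      exact h1 k
    exact congrFun (congrFun this j) i
  have hSki : ∀ k i j, S k i j = S i k j := by
    intro k i j
    simp only [hS, Matrix.mul_apply]
    exact Finset.sum_congr rfl fun m _ => by rw [h3 k i m]
  set D : Matrix (Fin d) (Fin d) ℂ := C * s⁻¹ with hD
  have hDs : D * s = C := by rw [hD, Matrix.mul_assoc, f1, Matrix.mul_one]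
  have hDs' : s * Dᵀ = -(D * s) := by
    have h5 : (D * s)ᵀ = D * s := by rw [hDs, hC]
    rw [Matrix.transpose_mul, hs, Matrix.neg_mul] at h5
    rw [← h5, neg_neg]
  have hcomm : ∀ k, R k * D = D * R k := by
    intro k
    have h6 : (R k)ᵀ * s⁻¹ = -(s⁻¹ * R k) := by
      have h7 : s⁻¹ * (R k * s + s * (R k)ᵀ) * s⁻¹ = 0 := by
        rw [h1 k, Matrix.mul_zero, Matrix.zero_mul]
      have h8 : s⁻¹ * (R k * s + s * (R k)ᵀ) * s⁻¹ = s⁻¹ * R k + (R k)ᵀ * s⁻¹ := by
        rw [Matrix.mul_add, Matrix.add_mul]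
        congr 1
        · rw [← Matrix.mul_assoc, Matrix.mul_assoc, f2, Matrix.mul_one]
        · rw [← Matrix.mul_assoc, f1, Matrix.one_mul]
      rw [h8] at h7
      exact eq_neg_of_add_eq_zero_right h7
    have h9 : R k * C = -(C * (R k)ᵀ) := eq_neg_of_add_eq_zero_left (h2 k)
    rw [hD, ← Matrix.mul_assoc, h9, Matrix.neg_mul, Matrix.mul_assoc, h6, Matrix.mul_neg, neg_neg,
      Matrix.mul_assoc]
  -- `T i k j = Σ D_{im} S_{mkj}`
  set T : Fin d → Fin d → Fin d → ℂ := fun i k j => ∑ m, D i m * S m k j with hT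
  have hTkj : ∀ i k j, T i k j = T i j k := by
    intro i k j
    simp only [hT]
    refine Finset.sum_congr rfl fun m _ => ?_
    rw [hSij m k j]
  have hTan : ∀ i k j, T i k j = -T j k i := by
    intro i k j
    have e1 : D * S k = -(S k * Dᵀ) := by
      simp only [hS]
      calc D * (R k * s) = D * R k * s := (Matrix.mul_assoc _ _ _).symm
        _ = R k * (D * s) := by rw [← hcomm k, Matrix.mul_assoc]
        _ = -(R k * (s * Dᵀ)) := by rw [hDs', Matrix.mul_neg, neg_neg]
        _ = _ := by rw [Matrix.mul_assoc]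
    have e2 := congrFun (congrFun e1 i) j
    rw [Matrix.neg_apply, Matrix.mul_apply, Matrix.mul_apply] at e2
    simp only [hT]
    have e3 : ∑ m, D i m * S m k j = ∑ m, D i m * S k m j :=
      Finset.sum_congr rfl fun m _ => by rw [hSki m k j]
    have e4 : ∑ m, D j m * S m k i = ∑ m, S k i m * Dᵀ m j :=
      Finset.sum_congr rfl fun m _ => by
        rw [Matrix.transpose_apply, hSki m k i, hSij k m i, mul_comm]
    rw [e3, e4, e2]
  have hT0 : ∀ i k j, T i k j = 0 := by
    intro i k j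
    have a1 := hTan i k j
    have a2 := hTkj j k i
    have a3 := hTan j i k
    have a4 := hTkj k i j
    have a5 := hTan k j i
    have a6 := hTkj i j k
    have : T i k j = -T i k j := by
      calc T i k j = -T j k i := a1
        _ = -T j i k := by rw [a2]
        _ = T k i j := by rw [a3, neg_neg]
        _ = T k j i := a4
        _ = -T i j k := a5
        _ = -T i k j := by rw [a6]
    exact self_eq_neg.1 this
  have hDS : D * S k = 0 := by
    ext i j
    rw [Matrix.mul_apply, Matrix.zero_apply, ← hT0 i k j]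
    exact Finset.sum_congr rfl fun m _ => by rw [hSki k m j]
  have h4 : C * (s⁻¹ * R k) * s = 0 := by
    rw [← hDS]
    simp only [hS, hD, Matrix.mul_assoc]
  have h5 := zero_of_mul hsd h4
  have h6 : C⁻¹ * (C * (s⁻¹ * R k)) = 0 := by rw [h5, Matrix.mul_zero]
  rw [← Matrix.mul_assoc, Matrix.nonsing_inv_mul _ hCd, Matrix.one_mul] at h6
  have h7 : s * (s⁻¹ * R k) = 0 := by rw [h6, Matrix.mul_zero]
  rwa [← Matrix.mul_assoc, f2, Matrix.one_mul] at h7

variable {X : Type} [TopologicalSpace X] [ChartedSpace (Cm d) X]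
  {w w0 s B C : Chart d X → Cm d → Matrix (Fin d) (Fin d) ℂ} {e : Chart d X} {x : X}

/-- the Christoffel matrices `Γ_k = ∂_k w w⁻¹` -/
def Gm (w : Cm d → Matrix (Fin d) (Fin d) ℂ) (k : Fin d) (z : Cm d) : Matrix (Fin d) (Fin d) ℂ :=
  DM k w z * (w z)⁻¹

lemma MC_Gm (hw : IsKahler w) (hx : At e x) (k : Fin d) : MC ∞ (Gm (w e) k) (e x) := by
  have hG : MC ∞ (w e) (e x) := hw.smooth e x hx
  exact (hG.DM (by exact le_rfl)).mul (hG.inv (hw.posDef e x hx).det_pos.ne')

lemma Gm_symm (hw : IsKahler w) (hx : At e x) (k i m : Fin d) :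
    Gm (w e) k (e x) i m = Gm (w e) i (e x) k m := by
  unfold Gm
  rw [Matrix.mul_apply, Matrix.mul_apply]
  refine Finset.sum_congr rfl fun j _ => ?_
  rw [DM_apply, DM_apply, hw.closed e x hx i j k]

variable [IsManifold 𝓘(ℂ, Cm d) ω X] [T2Space X] [CompactSpace X]

/-- the curvature annihilates holomorphic tensors -/
theorem IsHol2.curv (hB : IsHol2 B) (hw : IsKahler w) (hric : D.RicNonneg w) (hx : At e x)
    (k l : Fin d) : DMb l (Gm (w e) k) (e x) * B e (e x) +
      B e (e x) * (DMb l (Gm (w e) k) (e x))ᵀ = 0 := by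
  have one : (1 : WithTop ℕ∞) ≠ 0 := by norm_num
  have hev : C2.DM k (B e) =ᶠ[𝓝 (e x)] fun y => Gm (w e) k y * B e y + B e y * (Gm (w e) k y)ᵀ := by
    filter_upwards [eventually_at hx] with y hy
    have := hB.DM hw hric hy.1 k
    rw [hy.2] at this
    exact this
  have hG : MC 1 (Gm (w e) k) (e x) := (MC_Gm hw hx k).mono (by norm_cast)
  have hGt : MC 1 (fun y => (Gm (w e) k y)ᵀ) (e x) := fun i j => hG j i
  have hBm : MC 1 (B e) (e x) := hB.mc hx
  have hB2 : MC 2 (B e) (e x) := hB.mc hx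
  have h1 : DMb l (C2.DM k (B e)) (e x) = 0 := by
    rw [← DM_DMb_comm hB2]
    have h2 : DMb l (B e) =ᶠ[𝓝 (e x)] fun _ => 0 := by
      filter_upwards [eventually_at hx] with y hy
      have := hB.dmb hy.1 l
      rwa [hy.2] at this
    rw [DM_congr h2, DM_const]
  have h3 : DMb l (fun y => (Gm (w e) k y)ᵀ) (e x) = (DMb l (Gm (w e) k) (e x))ᵀ := rfl
  rw [DMb_congr hev, DMb_add ((hG.mul hBm).md one) ((hBm.mul hGt).md one),
    DMb_mul (hG.md one) (hBm.md one), DMb_mul (hBm.md one) (hGt.md one), hB.dmb hx, h3] at h1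
  simpa using h1

theorem flat_of_nondeg (h : IsSymplectic d X w0 s) (hw : IsKahler w) (hric : D.RicNonneg w)
    (hC : IsHol2 C) (hsym : IsSymT C) (hn : ∀ e x, At e x → (C e (e x)).det ≠ 0) (hx : At e x)
    (k l : Fin d) : DMb l (Gm (w e) k) (e x) = 0 := by
  refine curv_alg (R := fun k => DMb l (Gm (w e) k) (e x)) (s := s e (e x)) (C := C e (e x))
    (h.form.alt e x hx) (isUnit_iff_ne_zero.2 (h.nondeg e x hx)) (hsym e x hx)
    (isUnit_iff_ne_zero.2 (hn e x hx)) (fun k => (IsHol2.of_two h.form).curv hw hric hx k l)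
    (fun k => hC.curv hw hric hx k l) (fun k i m => ?_) k
  simp only [DMb_apply]
  refine dzb_congr l ?_
  filter_upwards [eventually_at hx] with y hy
  have := Gm_symm hw hy.1 k i m
  rwa [hy.2] at this

end Vale.Agent.P301.H599.BE
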