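import Vale.Agent.P301.H599.BE.Glob
import Vale.Agent.P301.H724.BeauT
import Vale.Agent.P301.H85.BeauJ

/-!
# P301, package BEAU-END: the Gram matrix of a holomorphic form is a multiple of the metric
-/

open scoped Manifold ContDiff ComplexOrder Topology Matrix
open Set Filter Metric
open Vale.Agent.P272.K Vale.Agent.P272.K.C2 Vale.Agent.P272.K.AMP
open Vale.Agent.P299 Vale.Agent.P299.H954 Vale.Agent.P301.H599 Vale.Agent.P301.H450

set_option maxSynthPendingDepth 3
set_option linter.all false

noncomputable section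

namespace Vale.Agent.P301.H599.BE

variable {d : ℕ} {X : Type} [TopologicalSpace X] [ChartedSpace (Cm d) X]
  {w w0 s B : Chart d X → Cm d → Matrix (Fin d) (Fin d) ℂ} {e : Chart d X} {x : X}

/-- `Bᵀ s` for a holomorphic field of endomorphisms `B` -/
theorem isHol2_end (hs : IsHol2 s) (hB : D.IsHolEnd B) :
    IsHol2 (fun e z => (B e z)ᵀ * s e z) where
  holo e x hx i j := by
    have : (fun z => ((B e z)ᵀ * s e z) i j) = fun z => ∑ k, B e z k i * s e z k j := by
      funext z
      rw [Matrix.mul_apply]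
      rfl
    rw [this]
    exact Finset.analyticAt_fun_sum _ fun k _ => (hB.holo e x hx k i).mul (hs.holo e x hx k j)
  change e e' x hx hx' := by
    have h1 := hB.change e e' x hx hx'
    have h2 := hs.change e e' x hx hx'
    show (B e (e x))ᵀ * s e (e x) = (jacM e e' x)ᵀ * ((B e' (e' x))ᵀ * s e' (e' x)) * jacM e e' x
    rw [h2]
    calc (B e (e x))ᵀ * ((jacM e e' x)ᵀ * s e' (e' x) * jacM e e' x)
        = (jacM e e' x * B e (e x))ᵀ * s e' (e' x) * jacM e e' x := by
          rw [Matrix.transpose_mul]; simp only [Matrix.mul_assoc]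
      _ = _ := by rw [h1, Matrix.transpose_mul]; simp only [Matrix.mul_assoc]

theorem isHol2_transpose (hB : IsHol2 B) : IsHol2 (fun e z => (B e z)ᵀ) where
  holo e x hx i j := hB.holo e x hx j i
  change e e' x hx hx' := by
    show (B e (e x))ᵀ = _
    rw [hB.change e e' x hx hx']
    simp only [Matrix.transpose_mul, Matrix.transpose_transpose, Matrix.mul_assoc]

theorem isHol2_add {B' : Chart d X → Cm d → Matrix (Fin d) (Fin d) ℂ} (hB : IsHol2 B)
    (hB' : IsHol2 B') : IsHol2 (fun e z => B e z + B' e z) where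
  holo e x hx i j := (hB.holo e x hx i j).add (hB'.holo e x hx i j)
  change e e' x hx hx' := by
    show B e (e x) + B' e (e x) = _
    rw [hB.change e e' x hx hx', hB'.change e e' x hx hx', Matrix.mul_add, Matrix.add_mul]

variable [IsManifold 𝓘(ℂ, Cm d) ω X] [T2Space X] [CompactSpace X]

/-- **holomorphic fields of endomorphisms are scalar** -/
theorem end_scalar [SimplyConnectedSpace X] (h : IsSymplectic d X w0 s) (hB : D.IsHolEnd B) :
    ∃ c : ℂ, ∀ e x, At e x → B e (e x) = c • (1 : Matrix (Fin d) (Fin d) ℂ) := by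
  have hN := isHol2_end (IsHol2.of_two h.form) hB
  have hS := isHol2_add hN (isHol2_transpose hN)
  have hz : ∀ e x, At e x → (B e (e x))ᵀ * s e (e x) + ((B e (e x))ᵀ * s e (e x))ᵀ = 0 := by
    intro e x hx
    refine sym_zero h hS (fun e x hx => ?_) hx
    show ((B e (e x))ᵀ * s e (e x) + ((B e (e x))ᵀ * s e (e x))ᵀ)ᵀ = _
    rw [Matrix.transpose_add, Matrix.transpose_transpose, add_comm]
  obtain ⟨c, hc⟩ := h.unique (fun e z => (B e z)ᵀ * s e z)
    ⟨hN.holo, fun e x hx => eq_neg_of_add_eq_zero_right (hz e x hx), hN.change⟩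
  refine ⟨c, fun e x hx => ?_⟩
  have hu : IsUnit (s e (e x)).det := isUnit_iff_ne_zero.2 (h.nondeg e x hx)
  have h1 := congrArg (· * (s e (e x))⁻¹) (hc e x hx)
  simp only [Matrix.mul_assoc, Matrix.smul_mul, Matrix.mul_nonsing_inv _ hu, Matrix.mul_one] at h1
  have h2 := congrArg Matrix.transpose h1
  rwa [Matrix.transpose_transpose, Matrix.transpose_smul, Matrix.transpose_one] at h2

/-- **the Gram matrix of a tensor is a multiple of the metric** -/
theorem gram_scalar [SimplyConnectedSpace X] (h : IsSymplectic d X w0 s) (hw : IsKahler w)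
    (hric : D.RicNonneg w) {p : ℕ} {t : D.Ten d (p + 1) X} (ht : D.IsTen (p + 1) 0 t) :
    ∃ c : ℂ, ∀ e x, At e x → gramT w t e (e x) = c • w e (e x) := by
  obtain ⟨c, hc⟩ := end_scalar h (endT_isHolEnd hw hric ht)
  refine ⟨c, fun e x hx => ?_⟩
  have h1 := congrArg Matrix.transpose (hc e x hx)
  rw [endT, Matrix.transpose_transpose, Matrix.transpose_smul, Matrix.transpose_one] at h1
  have hu : IsUnit (w e (e x)).det := isUnit_iff_ne_zero.2 (hw.posDef e x hx).det_pos.ne'
  have h2 := congrArg (· * w e (e x)) h1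
  simpa only [Matrix.mul_assoc, Matrix.nonsing_inv_mul _ hu, Matrix.mul_one, Matrix.smul_mul,
    Matrix.one_mul] using h2

open Vale.Agent.P299.IX Vale.Agent.P299.IX.Fock Vale.Agent.P301.H85 in
/-- the Gram matrix of a holomorphic form -/
theorem gram_form [SimplyConnectedSpace X] (h : IsSymplectic d X w0 s) (hw : IsKahler w)
    (hric : D.RicNonneg w) {p : ℕ} {g : Frm d X} (hg : IsHolF (p + 1) g) :
    ∃ c : ℂ, ∀ e x, At e x → ∀ i j, pr (lam (w e (e x))⁻¹ *ᵥ (iot i *ᵥ g e (e x)))
      (iot j *ᵥ g e (e x)) = c * w e (e x) i j := by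
  have ht : D.IsTen (p + 1) 0 (fun e z => ten (p + 1) (g e z)) :=
    isTen_ten (fun e x hx K => hg.holo e x hx K) (fun e e' x hx hx' => by
      rw [pow_zero, one_smul, hg.change e e' x hx hx']) (p + 1)
  obtain ⟨c, hc⟩ := gram_scalar h hw hric ht
  have hf : (p.factorial : ℂ) ≠ 0 := by exact_mod_cast Nat.factorial_ne_zero p
  refine ⟨c / p.factorial, fun e x hx i j => ?_⟩
  have h1 := congrFun (congrFun (hc e x hx) i) j
  rw [H724.gramT_ten w g e (e x) (hg.deg e x hx) i j, Matrix.smul_apply, smul_eq_mul] at h1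
  rw [div_mul_eq_mul_div, eq_div_iff hf, ← h1]
  ring

end Vale.Agent.P301.H599.BE
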