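import Vale.Agent.P301.H599.BE.End1

/-!
# P301, package BEAU-END: the square norms of a holomorphic form for two hyperkähler metrics
-/

open scoped Manifold ContDiff ComplexOrder Topology Matrix
open Set Filter Metric
open Vale.Agent.P272.K Vale.Agent.P272.K.C2 Vale.Agent.P272.K.AMP
open Vale.Agent.P299 Vale.Agent.P299.H954 Vale.Agent.P301.H599 Vale.Agent.P301.H450
open Vale.Agent.P299.IX Vale.Agent.P299.IX.Fock Vale.Agent.P301.H85
open Vale.Agent.P301.H724 (nsq nsq_frame frame_pos exists_frame_herm jensen)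

set_option linter.all false

noncomputable section

namespace Vale.Agent.P301.H599.BE

variable {d : ℕ}

section alg

variable {A B S : Matrix (Fin d) (Fin d) ℂ} {u : FI d → ℂ}

theorem exists_frame_self (hA : A.PosDef) : ∃ (T U : Matrix (Fin d) (Fin d) ℂ) (η : Fin d → ℝ),
    U * T = 1 ∧ T * U = 1 ∧ (∀ i, 0 < η i) ∧
      A = T * Matrix.diagonal (fun k => ((η k : ℝ) : ℂ)) * Tᴴ := by
  obtain ⟨T, U, η, h1, h2, h3, h4⟩ := exists_frame_herm hA hA.isHermitian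
  exact ⟨T, U, η, h1, h2, frame_pos h1 h4 hA, h4⟩

theorem nsq_nonneg (hA : A.PosDef) (u : FI d → ℂ) : 0 ≤ nsq A u := by
  obtain ⟨T, U, η, h1, h2, hη, h4⟩ := exists_frame_self hA
  rw [nsq_frame h1 h2 (fun i => (hη i).ne') h4]
  refine Finset.sum_nonneg fun I _ => mul_nonneg ?_ (sq_nonneg _)
  exact Finset.prod_nonneg fun i _ => inv_nonneg.2 (hη i).le

theorem nsq_pos (hA : A.PosDef) (hu : u ≠ 0) : 0 < nsq A u := by
  obtain ⟨T, U, η, h1, h2, hη, h4⟩ := exists_frame_self hA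
  have h5 : lam U *ᵥ u ≠ 0 := by
    intro h0
    apply hu
    have h6 : lam T *ᵥ (lam U *ᵥ u) = u := by
      rw [Matrix.mulVec_mulVec, ← lam_mul, h2, lam_one, Matrix.one_mulVec]
    rw [← h6, h0, Matrix.mulVec_zero]
  obtain ⟨I, hI⟩ := Function.ne_iff.1 h5
  rw [nsq_frame h1 h2 (fun i => (hη i).ne') h4]
  have hp : ∀ I : FI d, 0 < ∏ i ∈ I, (η i)⁻¹ := fun I => Finset.prod_pos fun i _ => inv_pos.2 (hη i)
  refine Finset.sum_pos' (fun I _ => mul_nonneg (hp I).le (sq_nonneg _))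
    ⟨I, Finset.mem_univ _, mul_pos (hp I) ?_⟩
  have : 0 < ‖(lam U *ᵥ u) I‖ := norm_pos_iff.2 hI
  positivity

theorem det_real (hA : A.PosDef) : A.det = (A.det.re : ℂ) := by
  have := (Complex.lt_def.1 hA.det_pos).2
  exact Complex.ext rfl (by simpa using this.symm)

theorem det_re_pos (hA : A.PosDef) : 0 < A.det.re := (Complex.lt_def.1 hA.det_pos).1

theorem hA_re (hA : A.PosDef) (u : FI d → ℂ) : (H85.hA A u u).re = nsq A u * A.det.re := by
  rw [H85.hA, det_real hA, Complex.re_ofReal_mul, nsq, Complex.ofReal_re]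
  ring

/-- comparison of the norms of a form with scalar Gram matrices -/
theorem nsq_le {p : ℕ} (hd : 0 < d) {a b σ : ℝ} (ha : 0 < a) (hb : 0 < b) (hσ : 0 < σ)
    (hA : A.PosDef) (hB : B.PosDef) (hAd : A.det.re = a ^ d * σ) (hBd : B.det.re = b ^ d * σ)
    (hu : ∀ I, I.card ≠ p → u I = 0) {c : ℂ}
    (hc : ∀ i j, pr (lam A⁻¹ *ᵥ (iot i *ᵥ u)) (iot j *ᵥ u) = c * A i j) :
    nsq A u * a ^ p ≤ nsq B u * b ^ p := by
  have h1 := (jensen hA hB hd hu hc).2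
  have h2 : A.det.re / B.det.re = (a / b) ^ d := by
    rw [hAd, hBd, div_pow, mul_div_mul_right _ _ hσ.ne']
  have h3 : ((a / b) ^ d) ^ ((p : ℝ) / d) = (a / b) ^ p := by
    have hdR : (d : ℝ) ≠ 0 := by exact_mod_cast hd.ne'
    rw [← Real.rpow_natCast (a / b) d, ← Real.rpow_mul (by positivity), mul_div_cancel₀ _ hdR,
      Real.rpow_natCast]
  rw [h2, h3, div_pow, mul_div_assoc'] at h1
  rwa [div_le_iff₀ (by positivity)] at h1

theorem hA_rel {p m : ℕ} (hd : 0 < d) (hpm : p + m = d) {a b σ : ℝ} (ha : 0 < a) (hb : 0 < b)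
    (hσ : 0 < σ) (hA : A.PosDef) (hB : B.PosDef) (hAd : A.det.re = a ^ d * σ)
    (hBd : B.det.re = b ^ d * σ) (hu : ∀ I, I.card ≠ p → u I = 0) {c c' : ℂ}
    (hc : ∀ i j, pr (lam A⁻¹ *ᵥ (iot i *ᵥ u)) (iot j *ᵥ u) = c * A i j)
    (hc' : ∀ i j, pr (lam B⁻¹ *ᵥ (iot i *ᵥ u)) (iot j *ᵥ u) = c' * B i j) :
    (H85.hA A u u).re * b ^ m = (H85.hA B u u).re * a ^ m := by
  have h1 : nsq A u * a ^ p = nsq B u * b ^ p :=
    le_antisymm (nsq_le hd ha hb hσ hA hB hAd hBd hu hc) (nsq_le hd hb ha hσ hB hA hBd hAd hu hc')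
  have e1 : a ^ d = a ^ p * a ^ m := by rw [← pow_add, hpm]
  have e2 : b ^ d = b ^ p * b ^ m := by rw [← pow_add, hpm]
  rw [hA_re hA, hA_re hB, hAd, hBd, e1, e2]
  linear_combination (a ^ m * b ^ m * σ) * h1

end alg

variable {X : Type} [TopologicalSpace X] [ChartedSpace (Cm d) X]
  {w w0 w1 s : Chart d X → Cm d → Matrix (Fin d) (Fin d) ℂ} {e : Chart d X} {x : X}
  [IsManifold 𝓘(ℂ, Cm d) ω X] [T2Space X] [CompactSpace X]

omit [IsManifold 𝓘(ℂ, Cm d) ω X] [T2Space X] [CompactSpace X] in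
theorem det_hk {κ : ℝ} (hk : IsHK s w κ) (hS : (s e (e x)).det ≠ 0) (hx : At e x) :
    (w e (e x)).det.re = Real.sqrt κ ^ d * ‖(s e (e x)).det‖ := by
  have h3 := det_rel (hk.kahler.posDef e x hx) (isUnit_iff_ne_zero.2 hS) (hk.rel e x hx)
  have h4 : 0 < (w e (e x)).det.re := det_re_pos (hk.kahler.posDef e x hx)
  have h5 : (Real.sqrt κ ^ d * ‖(s e (e x)).det‖) ^ 2 = (w e (e x)).det.re ^ 2 := by
    rw [h3, mul_pow, ← pow_mul, mul_comm d 2, pow_mul, Real.sq_sqrt hk.pos.le]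
  exact ((sq_eq_sq₀ (by positivity) h4.le).1 h5).symm

/-- **the square norms of a holomorphic form for two hyperkähler metrics** -/
theorem intX_rel [SimplyConnectedSpace X] (hd : 0 < d) (h : IsSymplectic d X w0 s) {κ κ1 : ℝ}
    (hk : IsHK s w κ) (hk1 : IsHK s w1 κ1) {p m : ℕ} (hpm : p + 1 + m = d) {g : Frm d X}
    (hg : IsHolF (p + 1) g) :
    INT.intX (fun e z => (hp 0 (w e) z (g e z) (g e z)).re) * Real.sqrt κ1 ^ m =
      INT.intX (fun e z => (hp 0 (w1 e) z (g e z) (g e z)).re) * Real.sqrt κ ^ m := by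
  obtain ⟨c, hc⟩ := gram_form h hk.kahler hk.ric hg
  obtain ⟨c', hc'⟩ := gram_form h hk1.kahler hk1.ric hg
  rw [mul_comm, mul_comm _ (Real.sqrt κ ^ m), ← INT.intX_const_mul, ← INT.intX_const_mul]
  refine INT.intX_congr fun e x hx => ?_
  rw [hp_zero_eq, hp_zero_eq, mul_comm, mul_comm (Real.sqrt κ ^ m)]
  exact hA_rel hd hpm (Real.sqrt_pos.2 hk.pos) (Real.sqrt_pos.2 hk1.pos)
    (norm_pos_iff.2 (h.nondeg e x hx)) (hk.kahler.posDef e x hx) (hk1.kahler.posDef e x hx)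
    (det_hk hk (h.nondeg e x hx) hx) (det_hk hk1 (h.nondeg e x hx) hx) (hg.deg e x hx)
    (hc e x hx) (hc' e x hx)

end Vale.Agent.P301.H599.BE
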