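import Vale.Agent.P301.H599.BE.End2
import Vale.Agent.P301.H450.Fuj
import Vale.Agent.P272.K.AMP.Main.Step0

/-!
# P301, package BEAU-END: there are no holomorphic forms of odd degree
-/

open scoped Manifold ContDiff ComplexOrder Topology Matrix
open Set Filter Metric
open Vale.Agent.P272.K Vale.Agent.P272.K.C2 Vale.Agent.P272.K.AMP
open Vale.Agent.P299 Vale.Agent.P299.H954 Vale.Agent.P301.H599 Vale.Agent.P301.H450
open Vale.Agent.P299.IX Vale.Agent.P299.IX.Fock Vale.Agent.P301.H85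
open Vale.Agent.P301.H724 (nsq nsq_frame frame_pos exists_frame_herm jensen)

set_option linter.all false

noncomputable section

namespace Vale.Agent.P301.H599.BE

variable {d : ℕ} {X : Type} [TopologicalSpace X] [ChartedSpace (Cm d) X]
  {w w0 w1 s θ : Chart d X → Cm d → Matrix (Fin d) (Fin d) ℂ} {e : Chart d X} {x : X}

/-- a symplectic manifold has even dimension -/
theorem even_dim {S : Matrix (Fin d) (Fin d) ℂ} (h1 : Sᵀ = -S) (h2 : S.det ≠ 0) : Even d := by
  have h3 := congrArg Matrix.det h1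
  rw [Matrix.det_transpose, Matrix.det_neg, Fintype.card_fin] at h3
  by_contra hd
  rw [Nat.not_even_iff_odd] at hd
  rw [hd.neg_one_pow] at h3
  apply h2
  have h4 : (2 : ℂ) * S.det = 0 := by linear_combination h3
  exact (mul_eq_zero.1 h4).resolve_left two_ne_zero

/-- the line of forms through `w` -/
def Wt (w θ : Chart d X → Cm d → Matrix (Fin d) (Fin d) ℂ) (t : ℝ) :
    Chart d X → Cm d → Matrix (Fin d) (Fin d) ℂ := fun e z => w e z + (t : ℂ) • θ e z

variable [IsManifold 𝓘(ℂ, Cm d) ω X] [T2Space X] [CompactSpace X]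

omit [IsManifold 𝓘(ℂ, Cm d) ω X] [T2Space X] [CompactSpace X] in
theorem isKahler_cl [IsManifold 𝓘(ℂ, Cm d) ω X] {b : Chart d X → Cm d → Matrix (Fin d) (Fin d) ℂ}
    (hb : INT.IsClosedForm b) (hp : ∀ e x, At e x → (b e (e x)).PosDef) : IsKahler b where
  smooth := hb.smooth
  posDef := hp
  change := hb.form
  closed e x h i j k := hb.closed e x h k i j

theorem exists_range (hw : IsKahler w) (hθ : IsReal11 θ) :
    ∃ t₀ : ℝ, 0 < t₀ ∧ ∀ t, 0 ≤ t → t ≤ t₀ → IsKahler (Wt w θ t) := by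
  have hn := hθ.smul (-1)
  obtain ⟨C, hC, hpos⟩ := Main.exists_comparison' (n := d) hw.toIsHermitian
    hn.smooth hn.form hn.herm
  refine ⟨1 / (2 * C), by positivity, fun t h0 h1 => ?_⟩
  refine isKahler_cl (b := Wt w θ t) ((INT.IsKahler.isClosedForm hw).add
    (INT.IsClosedForm.smul t hθ.toIsClosedForm)) fun e x hx => ?_
  have e1 : Wt w θ t e (e x) = ((1 - t * C : ℝ) : ℂ) • w e (e x) +
      (t : ℂ) • ((C : ℂ) • w e (e x) - ((-1 : ℝ) : ℂ) • θ e (e x)) := by
    show w e (e x) + (t : ℂ) • θ e (e x) = _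
    rw [smul_sub, smul_smul, smul_smul, ← add_sub_assoc, ← add_smul]
    push_cast
    rw [sub_add_cancel, one_smul, mul_neg_one, neg_smul, sub_neg_eq_add]
  have h2 : t * C ≤ 1 / 2 := by
    calc t * C ≤ 1 / (2 * C) * C := mul_le_mul_of_nonneg_right h1 hC.le
      _ = 1 / 2 := by field_simp
  rw [e1]
  refine Matrix.PosDef.add_posSemidef ((hw.posDef e x hx).smul ?_) ((hpos e x hx).smul ?_)
  · have : (0 : ℝ) < 1 - t * C := by linarith
    exact_mod_cast this
  · exact_mod_cast h0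

theorem q_Wt {κ : ℝ} (S : SData s w1 κ) (hw : IsKahler w) (hθ : IsReal11 θ) (t : ℝ) :
    q s (Wt w θ t) (Wt w θ t) = q s w w + 2 * t * q s w θ + t ^ 2 * q s θ θ := by
  have cw := INT.IsKahler.isClosedForm hw
  have cθ := hθ.toIsClosedForm
  have c1 := INT.IsClosedForm.smul t cθ
  have c2 := cw.add c1
  unfold Wt
  rw [q_add_left S cw c1 c2, q_add_right S cw cw c1, q_add_right S c1 cw c1, q_smul_left,
    q_smul_left, q_smul_right S, q_smul_right S, q_symm S θ w]
  ring

/-- the square norm of `g` for the metric `w` -/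
def NI (w : Chart d X → Cm d → Matrix (Fin d) (Fin d) ℂ) (g : Frm d X) : ℝ :=
  INT.intX (fun e z => (hp 0 (w e) z (g e z) (g e z)).re)

theorem dens_NI {p : ℕ} {g : Frm d X} (hg : IsHolF p g) (hw : IsKahler w) :
    INT.IsDensity fun e z => (hp 0 (w e) z (g e z) (g e z)).re := by
  have hs := (isSec_iff (w := w)).1 hg.isSec
  have h1 := (G.dens_hpL hw (isHLB_K 0 hw) hs hs).re
  exact h1

/-- the square norm is a polynomial on the line -/
theorem exists_NI_poly (hd : 0 < d) (hw : IsKahler w) (hθ : IsReal11 θ) {t₀ : ℝ} (h0 : 0 < t₀)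
    (hK : ∀ t, 0 ≤ t → t ≤ t₀ → IsKahler (Wt w θ t)) {p : ℕ} {g : Frm d X} (hg : IsHolF p g) :
    ∃ Q : Polynomial ℝ, ∀ t, 0 ≤ t → t ≤ t₀ → NI (Wt w θ t) g = Q.eval t := by
  have hdR : (0 : ℝ) < d := by exact_mod_cast hd
  set x : Fin (d + 1) → ℝ := fun i => t₀ / d * (i : ℕ) with hx
  have hinj : Function.Injective x := by
    intro i j hij
    have h1 : t₀ / d ≠ 0 := by positivity
    have h2 := mul_left_cancel₀ h1 hij
    exact Fin.ext (by exact_mod_cast h2)
  have hx0 : ∀ i, 0 ≤ x i := fun i => by positivity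
  have hx1 : ∀ i, x i ≤ t₀ := fun i => by
    have h1 : ((i : ℕ) : ℝ) ≤ d := by exact_mod_cast Nat.lt_succ_iff.1 i.2
    calc t₀ / d * (i : ℕ) ≤ t₀ / d * d := mul_le_mul_of_nonneg_left h1 (by positivity)
      _ = t₀ := by field_simp
  refine ⟨∑ i, Polynomial.C (NI (Wt w θ (x i)) g) * Lagrange.basis Finset.univ x i,
    fun t ht0 ht1 => ?_⟩
  rw [Polynomial.eval_finsetSum]
  simp only [Polynomial.eval_mul, Polynomial.eval_C]
  have h1 : NI (Wt w θ t) g = INT.intX (fun e z => ∑ i, (Lagrange.basis Finset.univ x i).eval t *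
      (hp 0 (Wt w θ (x i) e) z (g e z) (g e z)).re) := by
    refine INT.intX_congr fun e y hy => ?_
    obtain ⟨P, hP, hPt⟩ := H724.exists_poly (hw.posDef e y hy) (hθ.herm e y hy) (g e (e y))
    have h2 : ∀ t, 0 ≤ t → t ≤ t₀ → (hp 0 (Wt w θ t e) (e y) (g e (e y)) (g e (e y))).re =
        P.eval t := by
      intro t h0 h1
      have h3 := (hK t h0 h1).posDef e y hy
      rw [hp_zero_eq, hA_re h3]
      exact hPt t h3
    rw [h2 t ht0 ht1, H724.eval_eq_lagrange d hinj hP t]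
    refine Finset.sum_congr rfl fun i _ => ?_
    rw [h2 _ (hx0 i) (hx1 i), mul_comm]
  rw [h1, INT.intX_sum Finset.univ fun i _ => (dens_NI hg (hK _ (hx0 i) (hx1 i))).const_mul _]
  refine Finset.sum_congr rfl fun i _ => ?_
  rw [INT.intX_const_mul, mul_comm]
  rfl

/-- **no holomorphic forms of odd degree** -/
theorem odd_zero [SimplyConnectedSpace X] (h : IsSymplectic d X w0 s) (hw : IsKahler w)
    (hθ : IsReal11 θ) (hqq : q s θ θ = 0) (hqw : q s w θ ≠ 0) {p : ℕ} (hp : Odd p)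
    {g : Frm d X} (hg : IsHolF p g) (hx : At e x) : g e (e x) = 0 := by
  by_contra hne
  have hed : Even d := even_dim (h.form.alt e x hx) (h.nondeg e x hx)
  have hpd : p ≤ d := by
    by_contra hlt
    push Not at hlt
    apply hne
    ext I
    refine hg.deg e x hx I (ne_of_lt ((Finset.card_le_univ I).trans_lt ?_))
    rwa [Fintype.card_fin]
  obtain ⟨p', rfl⟩ : ∃ p', p = p' + 1 := ⟨p - 1, by
    have : 0 < p := hp.pos
    omega⟩
  have hd : 0 < d := by omega
  obtain ⟨m, hm⟩ : ∃ m, p' + 1 + m = d := ⟨d - (p' + 1), by omega⟩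
  have hmo : Odd m := by
    rw [← hm, Nat.even_add] at hed
    rw [← Nat.not_even_iff_odd] at hp ⊢
    exact fun hme => hp (hed.2 hme)
  obtain ⟨t₀, ht₀, hK⟩ := exists_range hw hθ
  obtain ⟨Q, hQ⟩ := exists_NI_poly hd hw hθ ht₀ hK hg
  have hne' : Nonempty X := ⟨x⟩
  -- the constant of the hyperkähler metric in the class of `w + t θ`
  have hdat : ∀ t, 0 ≤ t → t ≤ t₀ → ∃ κ : ℝ, 0 < κ ∧ κ * (d * vol s) =
      q s w w + 2 * t * q s w θ ∧ ∃ w' : Chart d X → Cm d → Matrix (Fin d) (Fin d) ℂ,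
        IsHK s w' κ ∧ NI w' g = Q.eval t := by
    intro t h0 h1
    obtain ⟨u, κ, hu, hk⟩ := exists_rf h (hK t h0 h1)
    have S := SData.of h hk
    refine ⟨κ, hk.pos, ?_, _, hk, ?_⟩
    · have e1 := q_Wt S hw hθ t
      rw [hqq, mul_zero, add_zero] at e1
      rw [← q_self S, ← e1]
      exact q_addH S (INT.IsKahler.isClosedForm (hK t h0 h1)) hu
    · rw [← hQ t h0 h1]
      exact JINV hg (hK t h0 h1) hu hk.kahler
  obtain ⟨κ₀, hκ₀, hκ₀', w₀', hk₀, hI₀⟩ := hdat 0 le_rfl ht₀.le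
  have hV : 0 < vol s := vol_pos (SData.of h hk₀)
  have hdR : (0 : ℝ) < d := by exact_mod_cast hd
  set V : ℝ := d * vol s with hVd
  have hVp : 0 < V := by positivity
  -- the identity
  have hid : ∀ t, 0 ≤ t → t ≤ t₀ → (Q.eval 0) ^ 2 * ((q s w w + 2 * t * q s w θ) / V) ^ m =
      (Q.eval t) ^ 2 * κ₀ ^ m := by
    intro t h0 h1
    obtain ⟨κ, hκ, hκ', w', hk, hI⟩ := hdat t h0 h1
    have h2 := intX_rel hd h hk₀ hk hm hg
    have h3 : Q.eval 0 * Real.sqrt κ ^ m = Q.eval t * Real.sqrt κ₀ ^ m := by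
      rw [← hI₀, ← hI]
      exact h2
    have h4 := congrArg (· ^ 2) h3
    simp only [mul_pow, ← pow_mul] at h4
    rw [mul_comm m 2, pow_mul, pow_mul, Real.sq_sqrt hκ.le, Real.sq_sqrt hκ₀.le] at h4
    rw [← hκ', mul_div_assoc, div_self hVp.ne', mul_one]
    exact h4
  set B : ℝ := 2 * q s w θ / V with hB
  have hB0 : B ≠ 0 := div_ne_zero (mul_ne_zero two_ne_zero hqw) hVp.ne'
  have hpoly : Polynomial.C ((Q.eval 0) ^ 2) *
      (Polynomial.C B * Polynomial.X + Polynomial.C (q s w w / V)) ^ m =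
      Q ^ 2 * Polynomial.C (κ₀ ^ m) := by
    refine Polynomial.eq_of_infinite_eval_eq _ _ ((Set.Icc_infinite ht₀).mono fun t ht => ?_)
    show Polynomial.eval t _ = Polynomial.eval t _
    simp only [Polynomial.eval_mul, Polynomial.eval_C, Polynomial.eval_pow, Polynomial.eval_add,
      Polynomial.eval_X]
    rw [← hid t ht.1 ht.2]
    congr 2
    rw [hB]
    field_simp
    ring
  have hQ0 : Q.eval 0 ≠ 0 := by
    have h1 : 0 < NI (Wt w θ 0) g := by
      refine intX_pos_of_pos (dens_NI hg (hK 0 le_rfl ht₀.le)) (fun e y hy => ?_) (x := x)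
        fun e' hx' => ?_
      · beta_reduce
        have h3 := (hK 0 le_rfl ht₀.le).posDef e y hy
        rw [hp_zero_eq, hA_re h3]
        exact mul_nonneg (nsq_nonneg h3 _) (det_re_pos h3).le
      · beta_reduce
        have h3 := (hK 0 le_rfl ht₀.le).posDef e' x hx'
        rw [hp_zero_eq, hA_re h3]
        refine mul_pos (nsq_pos h3 fun h0 => hne ?_) (det_re_pos h3)
        rw [hg.change e e' x hx hx', h0, Matrix.mulVec_zero]
    rw [hQ 0 le_rfl ht₀.le] at h1
    exact h1.ne'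
  have h5 := congrArg Polynomial.natDegree hpoly
  rw [Polynomial.natDegree_C_mul (pow_ne_zero 2 hQ0), Polynomial.natDegree_mul_C
    (pow_pos hκ₀ m).ne', Polynomial.natDegree_pow, Polynomial.natDegree_pow,
    Polynomial.natDegree_linear hB0, mul_one] at h5
  rw [h5] at hmo
  exact absurd hmo (by simp)

end Vale.Agent.P301.H599.BE
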