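import Vale.Agent.P301.H599.BE.Par
import Vale.Agent.P211.HK.LocSys
import Vale.Agent.P301.H85.SC.Symp

/-!
# P301: a simply connected compact Kähler manifold carries no flat Kähler metric
-/

open scoped Manifold ContDiff ComplexOrder Topology Matrix
open Set Filter Metric
open Vale.Agent.P272.K Vale.Agent.P272.K.C2 Vale.Agent.P272.K.AMP
open Vale.Agent.P299 Vale.Agent.P299.H954 Vale.Agent.P301.H599 Vale.Agent.P301.H450

set_option maxSynthPendingDepth 3
set_option linter.all false

noncomputable section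

namespace Vale.Agent.P301.H599.BE

variable {d : ℕ} {X : Type} [TopologicalSpace X] [ChartedSpace (Cm d) X]
  {w w0 B : Chart d X → Cm d → Matrix (Fin d) (Fin d) ℂ} {e e' : Chart d X} {x : X}
  {s s' : X → Cm d}

/-- the components in the chart `e` of the `1`-form whose components at `q` in the preferred chart
at `q` are `s q` -/
def comp (s : X → Cm d) (e : Chart d X) (z : Cm d) : Cm d :=
  (jacM e (chartAt (Cm d) (e.symm z)) (e.symm z))ᵀ *ᵥ s (e.symm z)

lemma comp_at (s : X → Cm d) (hx : At e x) :
    comp s e (e x) = (jacM e (chartAt (Cm d) x) x)ᵀ *ᵥ s x := by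
  unfold comp
  rw [hx.left_inv]

lemma nhds_symm (hx : At e x) : Tendsto e.symm (𝓝 (e x)) (𝓝 x) := by
  have := e.continuousAt_symm hx.mem_target
  rwa [ContinuousAt, hx.left_inv] at this

lemma comp_congr (hx : At e x) (h : ∀ᶠ q in 𝓝 x, s q = s' q) :
    comp s e =ᶠ[𝓝 (e x)] comp s' e := by
  filter_upwards [(nhds_symm hx).eventually h] with z hz
  unfold comp
  rw [hz]

/-- the form is parallel at `x` -/
def ParPt (w : Chart d X → Cm d → Matrix (Fin d) (Fin d) ℂ) (s : X → Cm d) (x : X) : Prop :=
  ∀ e, At e x → ParC (w e) (comp s e) (e x)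

theorem ParPt.congr (h : ParPt w s x) (hs : ∀ᶠ q in 𝓝 x, s q = s' q) : ParPt w s' x :=
  fun e hx => (h e hx).congr (comp_congr hx hs)

variable [IsManifold 𝓘(ℂ, Cm d) ω X]

lemma comp_change (s : X → Cm d) (hx : At e x) (hx' : At e' x) :
    comp s e (e x) = (jacM e e' x)ᵀ *ᵥ comp s e' (e' x) := by
  have hc := AMP.at_chartAt (n := d) x
  rw [comp_at s hx, comp_at s hx', jacM_comp hx hx' hc, Matrix.transpose_mul,
    Matrix.mulVec_mulVec]

lemma comp_self (s : X → Cm d) : comp s (chartAt (Cm d) x) (chartAt (Cm d) x x) = s x := by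
  have hc := AMP.at_chartAt (n := d) x
  rw [comp_at s hc, jacM_self hc, Matrix.transpose_one, Matrix.one_mulVec]

lemma tau_eq (hx : At e x) : e' (e.symm (e x)) = e' x := by rw [hx.left_inv]

/-- change of charts -/
theorem parC_change (hw : IsKahler w) (hx : At e x) (hx' : At e' x)
    (h : ParC (w e') (comp s e') (e' x)) : ParC (w e) (comp s e) (e x) := by
  have hτ := transition_differentiableAt hx hx'
  have hst : e' (e.symm (e x)) = e' x := tau_eq hx
  constructor
  · have h1 : comp s e =ᶠ[𝓝 (e x)] fun z => (jacM e e' (e.symm z))ᵀ *ᵥ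
        comp s e' (e' (e.symm z)) := by
      filter_upwards [hx.nhds_at hx'] with z hz
      have := comp_change s hz.2.1 hz.2.2
      rw [e.right_inv hz.1] at this
      exact this
    refine DifferentiableAt.congr_of_eventuallyEq ?_ h1
    refine differentiableAt_pi.2 fun i => ?_
    show DifferentiableAt ℂ (fun z => ∑ p, jacM e e' (e.symm z) p i *
      comp s e' (e' (e.symm z)) p) (e x)
    refine DifferentiableAt.fun_sum fun p _ => ?_
    refine ((jacM_holo hx hx' p i).differentiableAt (by simp)).mul ?_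
    have h2 : DifferentiableAt ℂ (fun z' => comp s e' z' p) (e' (e.symm (e x))) := by
      rw [hst]; exact differentiableAt_pi.1 h.1 p
    exact DifferentiableAt.comp (e x) (g := fun z' => comp s e' z' p)
      (f := fun z => e' (e.symm z)) h2 hτ
  · have h1 : (fun y => star ((w e y)⁻¹ *ᵥ comp s e y)) =ᶠ[𝓝 (e x)]
        fun z => (jacM e' e (e'.symm (e' (e.symm z)))) *ᵥ
          star ((w e' (e' (e.symm z)))⁻¹ *ᵥ comp s e' (e' (e.symm z))) := by
      filter_upwards [hx.nhds_at hx'] with z hz
      have h2 := comp_change s hz.2.1 hz.2.2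
      have h3 := hw.change e e' (e.symm z) hz.2.1 hz.2.2
      rw [e.right_inv hz.1] at h2 h3
      rw [hz.2.2.left_inv, h2, h3]
      set y := e.symm z with hy
      have hJu : IsUnit (jacM e e' y).det := jacM_isUnit hz.2.1 hz.2.2
      have hJc := isUnit_conj hJu
      have hJt : IsUnit ((jacM e e' y)ᵀ).det := by rwa [Matrix.det_transpose]
      have hmul := jacM_mul hz.2.1 hz.2.2
      rw [inv_form hJu, Matrix.mulVec_mulVec]
      have h4 : ((jacM e e' y).map (starRingEnd ℂ))⁻¹ * (w e' (e' y))⁻¹ * ((jacM e e' y)ᵀ)⁻¹ *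
          (jacM e e' y)ᵀ = ((jacM e e' y).map (starRingEnd ℂ))⁻¹ * (w e' (e' y))⁻¹ := by
        rw [Matrix.mul_assoc, Matrix.nonsing_inv_mul _ hJt, Matrix.mul_one]
      have h5 : ((jacM e e' y).map (starRingEnd ℂ))⁻¹ = (jacM e' e y).map (starRingEnd ℂ) := by
        refine Matrix.inv_eq_left_inv ?_
        rw [← Matrix.map_mul, hmul]
        exact Matrix.map_one _ (map_zero _) (map_one _)
      rw [h4, h5, ← Matrix.mulVec_mulVec]
      funext i
      show star (∑ p, (starRingEnd ℂ) (jacM e' e y i p) * _) = ∑ p, jacM e' e y i p * star _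
      rw [star_sum]
      refine Finset.sum_congr rfl fun p _ => ?_
      rw [star_mul', starRingEnd_apply, star_star]
    refine DifferentiableAt.congr_of_eventuallyEq ?_ h1
    have h6 : DifferentiableAt ℂ (fun z' => (jacM e' e (e'.symm z')) *ᵥ
        star ((w e' z')⁻¹ *ᵥ comp s e' z')) (e' (e.symm (e x))) := by
      rw [hst]
      refine differentiableAt_pi.2 fun i => ?_
      show DifferentiableAt ℂ (fun z' => ∑ p, jacM e' e (e'.symm z') i p *
        (star ((w e' z')⁻¹ *ᵥ comp s e' z')) p) (e' x)
      exact DifferentiableAt.fun_sum fun p _ =>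
        ((jacM_holo hx' hx i p).differentiableAt (by simp)).mul (differentiableAt_pi.1 h.2 p)
    exact DifferentiableAt.comp (e x) (g := fun z' => (jacM e' e (e'.symm z')) *ᵥ
        star ((w e' z')⁻¹ *ᵥ comp s e' z')) (f := fun z => e' (e.symm z)) h6 hτ

theorem parPt_of_chart (hw : IsKahler w) (hx : At e x) (h : ParC (w e) (comp s e) (e x)) :
    ParPt w s x := fun e' hx' => parC_change hw hx' hx h

lemma posDef_near (hw : IsKahler w) (hx : At e x) : ∀ᶠ y in 𝓝 (e x), (w e y).PosDef := by
  filter_upwards [eventually_at hx] with y hy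
  have := hw.posDef e _ hy.1
  rwa [hy.2] at this

lemma near_chart {P : X → Prop} (hx : At e x) (h : ∀ᶠ q in 𝓝 x, P q) :
    ∀ᶠ z in 𝓝 (e x), P (e.symm z) ∧ At e (e.symm z) ∧ e (e.symm z) = z := by
  filter_upwards [(nhds_symm hx).eventually h, eventually_at hx] with z h1 h2
  exact ⟨h1, h2.1, h2.2⟩

/-- **the local system of parallel `1`-forms** -/
theorem locSys (hw : IsKahler w)
    (hf : ∀ e x, At e x → ∀ k l, DMb l (Gm (w e) k) (e x) = 0) :
    Vale.Agent.P211.HK.LocSys (X := X) (F := fun _ => Cm d)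
      (fun p s => ∀ᶠ q in 𝓝 p, ParPt w s q) where
  opn p s h := h.eventually_nhds
  loc p s s' h hs := by
    filter_upwards [h, hs.eventually_nhds] with q h1 h2 using h1.congr h2
  uniq p s s' h h' hp := by
    set e : Chart d X := chartAt (Cm d) p with he
    have hx : At e p := AMP.at_chartAt (n := d) p
    have h1 : ∀ᶠ y in 𝓝 (e p), ParC (w e) (fun y => comp s e y - comp s' e y) y := by
      filter_upwards [near_chart hx (h.and h')] with z hz
      have a := hz.1.1 e hz.2.1
      have b := hz.1.2 e hz.2.1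
      rw [hz.2.2] at a b
      exact a.sub b
    have h2 : comp s e (e p) - comp s' e (e p) = 0 := by
      rw [comp_at s hx, comp_at s' hx]
      rw [hp, sub_self]
    have h3 := parC_zero (posDef_near hw hx) h1 h2
    have h4 : ∀ᶠ q in 𝓝 p, comp s e (e q) - comp s' e (e q) = 0 :=
      (e.continuousAt hx.2).eventually h3
    filter_upwards [h4, e.open_source.mem_nhds hx.2] with q hq hqs
    have hAq : At e q := ⟨hx.1, hqs⟩
    have hc := AMP.at_chartAt (n := d) q
    rw [comp_at s hAq, comp_at s' hAq, ← Matrix.mulVec_sub] at hq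
    have hu : IsUnit ((jacM e (chartAt (Cm d) q) q)ᵀ).det := by
      rw [Matrix.det_transpose]; exact jacM_isUnit hAq hc
    have h5 := congrArg (((jacM e (chartAt (Cm d) q) q)ᵀ)⁻¹ *ᵥ ·) hq
    simp only [Matrix.mulVec_mulVec, Matrix.nonsing_inv_mul _ hu, Matrix.one_mulVec,
      Matrix.mulVec_zero] at h5
    exact sub_eq_zero.1 h5
  clo p s s' h h' hfr := by
    set e : Chart d X := chartAt (Cm d) p with he
    have hx : At e p := AMP.at_chartAt (n := d) p
    have hc : ContinuousAt (fun q => comp s e (e q) - comp s' e (e q)) p := by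
      have a := (h.self_of_nhds e hx).1.continuousAt
      have b := (h'.self_of_nhds e hx).1.continuousAt
      exact (ContinuousAt.comp (f := e) (g := comp s e) a (e.continuousAt hx.2)).sub
        (ContinuousAt.comp (f := e) (g := comp s' e) b (e.continuousAt hx.2))
    have h1 : ∃ᶠ q in 𝓝 p, comp s e (e q) - comp s' e (e q) = 0 := by
      refine (hfr.and_eventually (e.open_source.mem_nhds hx.2)).mono fun q hq => ?_
      have hAq : At e q := ⟨hx.1, hq.2⟩
      rw [comp_at s hAq, comp_at s' hAq, hq.1, sub_self]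
    have h2 : comp s e (e p) - comp s' e (e p) = 0 := by
      by_contra hne
      exact h1 (hc.eventually_ne hne)
    rw [comp_self, comp_self] at h2
    exact sub_eq_zero.1 h2
  ext p := by
    set e : Chart d X := chartAt (Cm d) p with he
    have hx : At e p := AMP.at_chartAt (n := d) p
    obtain ⟨r, hr, hb⟩ := Metric.isOpen_iff.1 e.open_target (e p) hx.mem_target
    refine ⟨e.source ∩ e ⁻¹' ball (e p) (r / 8), (e.isOpen_inter_preimage isOpen_ball).mem_nhds
      ⟨hx.2, mem_ball_self (by positivity)⟩, ?_⟩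
    intro q hq v
    have hAq : At e q := ⟨hx.1, hq.1⟩
    have hb2 : ball (e q) (r / 2) ⊆ ball (e p) r := by
      intro z hz
      have h1 : dist z (e p) ≤ dist z (e q) + dist (e q) (e p) := dist_triangle _ _ _
      have h2 : dist z (e q) < r / 2 := hz
      have h3 : dist (e q) (e p) < r / 8 := hq.2
      exact lt_of_le_of_lt h1 (by linarith)
    have hat : ∀ z ∈ ball (e q) (r / 2), At e (e.symm z) ∧ e (e.symm z) = z := fun z hz =>
      ⟨At.of_target hx.1 (hb (hb2 hz)), e.right_inv (hb (hb2 hz))⟩
    obtain ⟨Y, hY1, hY2⟩ := exists_sol (w := w e) (p := e q) (r := r / 2) (by positivity)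
      (fun z hz => by
        have h1 : MC ∞ (w e) (e (e.symm z)) := hw.smooth e _ (hat z hz).1
        rwa [(hat z hz).2] at h1)
      (fun z hz => by
        have h1 := (hw.posDef e _ (hat z hz).1).det_pos.ne'
        rwa [(hat z hz).2] at h1)
      (fun z hz => by
        have h1 := hf e _ (hat z hz).1
        rwa [(hat z hz).2] at h1) ((jacM e (chartAt (Cm d) q) q)ᵀ *ᵥ v)
    have hcq := AMP.at_chartAt (n := d) q
    refine ⟨fun q' => (jacM (chartAt (Cm d) q') e q')ᵀ *ᵥ Y (e q'), ?_, ?_⟩
    · show (jacM (chartAt (Cm d) q) e q)ᵀ *ᵥ Y (e q) = v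
      rw [hY1, Matrix.mulVec_mulVec, ← Matrix.transpose_mul, jacM_mul hcq hAq,
        Matrix.transpose_one, Matrix.one_mulVec]
    · intro q' hq'
      filter_upwards [(e.isOpen_inter_preimage isOpen_ball).mem_nhds hq'] with q'' hq''
      have hA : At e q'' := ⟨hx.1, hq''.1⟩
      refine parPt_of_chart hw hA ?_
      have hin : e q'' ∈ ball (e q) (r / 2 / 2) := by
        have h1 : dist (e q'') (e q) ≤ dist (e q'') (e p) + dist (e q) (e p) :=
          dist_triangle_right _ _ _
        have h2 : dist (e q'') (e p) < r / 8 := hq''.2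
        have h3 : dist (e q) (e p) < r / 8 := hq.2
        exact lt_of_le_of_lt h1 (by linarith)
      refine (hY2 _ hin).congr ?_
      filter_upwards [hA.nhds_target] with z hz
      have hAz : At e (e.symm z) := At.of_target hx.1 hz
      have hcz := AMP.at_chartAt (n := d) (e.symm z)
      show Y z = (jacM e (chartAt (Cm d) (e.symm z)) (e.symm z))ᵀ *ᵥ
        ((jacM (chartAt (Cm d) (e.symm z)) e (e.symm z))ᵀ *ᵥ Y (e (e.symm z)))
      rw [e.right_inv hz, Matrix.mulVec_mulVec, ← Matrix.transpose_mul, jacM_mul hAz hcz,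
        Matrix.transpose_one, Matrix.one_mulVec]

open Vale.Agent.P301.H85 Vale.Agent.P299.IX in
/-- a global parallel form is a holomorphic `1`-form -/
theorem isHolF_of_par (h : ∀ q, ParPt w s q) :
    IsHolF 1 (fun (e : Chart d X) z => oneF (comp s e z)) where
  holo e x hx I := by
    refine an_oneF (a := fun z => comp s e z) (fun i => ?_) I
    obtain ⟨U, hU, hUo, hxU⟩ := _root_.eventually_nhds_iff.1 (H954.eventually_at hx)
    refine Vale.Agent.P268.analyticAt_of_differentiableOn hUo (fun z hz => ?_) hxU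
    have h1 := (h (e.symm z) e (hU z hz).1).1
    rw [(hU z hz).2] at h1
    exact (differentiableAt_pi.1 h1 i).differentiableWithinAt
  change e e' x hx hx' := by
    rw [lam_oneF, comp_change s hx hx']
  deg e x hx I hI := oneF_deg _ hI

variable [T2Space X] [CompactSpace X]

open Vale.Agent.P301.H85 in
/-- no flat Kähler metric on a simply connected compact manifold of positive dimension -/
theorem not_flat [SimplyConnectedSpace X] (hd : 0 < d) (hw : IsKahler w)
    (hf : ∀ e x, At e x → ∀ k l, DMb l (Gm (w e) k) (e x) = 0) : False := by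
  have : LocallyPathConnectedSpace X := ChartedSpace.locallyPathConnectedSpace (Cm d) X
  obtain ⟨p⟩ : Nonempty X := inferInstance
  obtain ⟨s, ⟨hs1, hs2⟩, -⟩ := (locSys hw hf).existsUnique p (fun _ => (1 : ℂ))
  have hpar : ∀ q, ParPt w s q := fun q => (hs2 q).self_of_nhds
  have hx := AMP.at_chartAt (n := d) p
  have h1 := (isHolF_of_par hpar).one_zero hw hx
  have h2 := congrFun h1 {⟨0, hd⟩}
  rw [oneF_single, comp_self, hs1] at h2
  exact one_ne_zero h2

/-- **no symmetric holomorphic tensors** -/
theorem sym_zero [SimplyConnectedSpace X] {s : Chart d X → Cm d → Matrix (Fin d) (Fin d) ℂ}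
    (h : IsSymplectic d X w0 s) (hB : IsHol2 B) (hsym : IsSymT B) (hx : At e x) :
    B e (e x) = 0 := by
  by_contra hne
  have hd : 0 < d := by
    rcases Nat.eq_zero_or_pos d with rfl | h0
    · exact absurd (by ext i; exact i.elim0) hne
    · exact h0
  obtain ⟨u, κ, hu, hk⟩ := exists_rf h h.kahler
  obtain ⟨C, hC1, hC2, hC3⟩ := exists_nondeg h hk.kahler hk.ric hB hsym hx hne
  exact not_flat hd hk.kahler fun e x hx k l => flat_of_nondeg h hk.kahler hk.ric hC1 hC2 hC3 hx k l

end Vale.Agent.P301.H599.BE
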