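import Vale.Agent.P301.H450.HKC

/-!
# P301: holomorphic sections of `Ω¹ ⊗ Ω¹` on a compact Kähler manifold with `Ric ≥ 0`
-/

open scoped Manifold ContDiff ComplexOrder Topology Matrix
open Vale.Agent.P272.K Vale.Agent.P272.K.C2 Vale.Agent.P272.K.AMP
open Vale.Agent.P299 Vale.Agent.P299.H954 Vale.Agent.P301.H599 Vale.Agent.P301.H450

set_option linter.all false

noncomputable section

namespace Vale.Agent.P301.H599.BE

variable {d : ℕ} {X : Type} [TopologicalSpace X] [ChartedSpace (Cm d) X]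
  {w s B B' : Chart d X → Cm d → Matrix (Fin d) (Fin d) ℂ} {e : Chart d X} {x : X}

/-- `B` is a holomorphic section `Σ B_{ij} dz_i ⊗ dz_j` of `Ω¹ ⊗ Ω¹` -/
structure IsHol2 (B : Chart d X → Cm d → Matrix (Fin d) (Fin d) ℂ) : Prop where
  holo : ∀ e x, At e x → ∀ i j, AnalyticAt ℂ (fun z => B e z i j) (e x)
  change : ∀ e e' x, At e x → At e' x →
    B e (e x) = (jacM e e' x).transpose * B e' (e' x) * jacM e e' x

theorem IsHol2.of_two (h : IsHolTwoForm s) : IsHol2 s := ⟨h.holo, h.change⟩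

theorem IsHol2.isTen (hs : IsHol2 s) : D.IsTen 2 0 (t2 s) where
  holo e x hx I := hs.holo e x hx (I 0) (I 1)
  change e e' x hx hx' I := by
    rw [pow_zero, one_mul, t2, hs.change e e' x hx hx', D.tenPull]
    simp only [Matrix.mul_apply, Matrix.transpose_apply, Fin.prod_univ_two, t2, Finset.sum_mul]
    rw [← (finTwoArrowEquiv (Fin d)).symm.sum_comp, Fintype.sum_prod_type, Finset.sum_comm]
    refine Finset.sum_congr rfl fun q _ => Finset.sum_congr rfl fun p _ => ?_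
    simp only [finTwoArrowEquiv_symm_apply, Matrix.cons_val_zero, Matrix.cons_val_one]
    ring

lemma IsHol2.mc (hs : IsHol2 s) (hx : At e x) {r : WithTop ℕ∞} : MC r (s e) (e x) :=
  MC_of_analyticAt fun i j => hs.holo e x hx i j

lemma IsHol2.dmb (hs : IsHol2 s) (hx : At e x) (l : Fin d) : DMb l (s e) (e x) = 0 :=
  (holNear_of_analyticAt fun i j => hs.holo e x hx i j).self_of_nhds l

variable [IsManifold 𝓘(ℂ, Cm d) ω X] [T2Space X] [CompactSpace X]

/-- a holomorphic section of `Ω¹ ⊗ Ω¹` is parallel -/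
theorem IsHol2.nabG_zero (hs : IsHol2 s) (hw : IsKahler w) (hric : D.RicNonneg w) (hx : At e x)
    (k : Fin d) : nabG k (w e) (s e) (dual (w e)) (e x) = 0 := by
  have h := (bochner_tensor hw hric hs.isTen hx).1 k
  rw [nabG_t2] at h
  ext i j
  have := congrFun (congrFun h i) ((eq1 d).symm j)
  simpa using this

theorem IsHol2.DM_tm (hs : IsHol2 s) (hw : IsKahler w) (hric : D.RicNonneg w) (hx : At e x)
    (k : Fin d) : DM k (tm w s e) (e x) = 0 := by
  have g0 := (hw.posDef e x hx).det_pos.ne'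
  have hG : MC 1 (w e) (e x) := (hw.toIsHermitian.smooth e x hx · · |>.of_le (by norm_cast))
  have hS : MC 1 (s e) (e x) := hs.mc hx
  have hI : MC 1 (fun y => (w e y)⁻¹) (e x) := hG.inv g0
  have hD : MC 1 (dual (w e)) (e x) := MC_dual hG g0
  have one : (1 : WithTop ℕ∞) ≠ 0 := by norm_num
  have h := hs.nabG_zero hw hric hx k
  have e1 : DM k (tm w s e) (e x) = (w e (e x))⁻¹ * (nabG k (w e) (s e) (dual (w e)) (e x)) *
      dual (w e) (e x) := by
    have hdd : (dual (w e) (e x))⁻¹ * dual (w e) (e x) = 1 :=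
      Matrix.nonsing_inv_mul _ (isUnit_iff_ne_zero.2 (dual_posDef (hw.posDef e x hx)).det_pos.ne')
    have e0 : tm w s e = fun y => (w e y)⁻¹ * s e y * dual (w e) y := rfl
    rw [e0, DM_mul ((hI.mul hS).md one) (hD.md one), DM_mul (hI.md one) (hS.md one),
      DM_inv hG g0]
    unfold nabG nab
    simp only [Matrix.mul_add, Matrix.add_mul, Matrix.mul_sub, Matrix.sub_mul, Matrix.neg_mul,
      Matrix.mul_assoc, hdd, Matrix.mul_one]
    abel
  rw [e1, h, Matrix.mul_zero, Matrix.zero_mul]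

/-- `∂_k s = (∂_k w w⁻¹) s + s (∂_k w w⁻¹)ᵀ` -/
theorem IsHol2.DM (hs : IsHol2 s) (hw : IsKahler w) (hric : D.RicNonneg w) (hx : At e x)
    (k : Fin d) : DM k (s e) (e x) = DM k (w e) (e x) * (w e (e x))⁻¹ * s e (e x) +
      s e (e x) * (DM k (w e) (e x) * (w e (e x))⁻¹)ᵀ := by
  have h := hs.nabG_zero hw hric hx k
  have g0 := (hw.posDef e x hx).det_pos.ne'
  have hu : IsUnit (w e (e x)).det := isUnit_iff_ne_zero.2 g0
  have hG : MC 1 (w e) (e x) := (hw.toIsHermitian.smooth e x hx · · |>.of_le (by norm_cast))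
  have h1 : C2.DM k (dual (w e)) (e x) = -((w e (e x))⁻¹ * C2.DM k (w e) (e x) * (w e (e x))⁻¹)ᵀ := by
    have : C2.DM k (fun y => (w e y)⁻¹) (e x) =
        -((w e (e x))⁻¹ * C2.DM k (w e) (e x) * (w e (e x))⁻¹) := DM_inv hG g0
    rw [← Matrix.transpose_neg, ← this]
    rfl
  have h2 : (dual (w e) (e x))⁻¹ = (w e (e x))ᵀ := by
    unfold dual
    rw [← Matrix.transpose_nonsing_inv, Matrix.nonsing_inv_nonsing_inv _ hu]
  have h3 : s e (e x) * C2.DM k (dual (w e)) (e x) * (dual (w e) (e x))⁻¹ =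
      - (s e (e x) * (C2.DM k (w e) (e x) * (w e (e x))⁻¹)ᵀ) := by
    rw [h1, h2, Matrix.mul_neg, Matrix.neg_mul, Matrix.mul_assoc, ← Matrix.transpose_mul]
    congr 2
    rw [← Matrix.mul_assoc, ← Matrix.mul_assoc, Matrix.mul_nonsing_inv _ hu, Matrix.one_mul]
  unfold nabG nab at h
  rw [h3] at h
  rw [← sub_eq_zero, ← h]
  abel

omit [T2Space X] [CompactSpace X] [IsManifold 𝓘(ℂ, Cm d) ω X] in
/-- a matrix valued function without antiholomorphic derivative is holomorphic -/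
theorem an_of (h : ∀ e x, At e x → MC 1 (B e) (e x) ∧ ∀ l, DMb l (B e) (e x) = 0) (hx : At e x)
    (i j : Fin d) : AnalyticAt ℂ (fun z => B e z i j) (e x) := by
  refine analyticAt_of_dzb ?_
  filter_upwards [eventually_at hx] with y hy
  have h1 := h e _ hy.1
  rw [hy.2] at h1
  exact ⟨(h1.1 i j).differentiableAt (by norm_num), fun l => congrFun (congrFun (h1.2 l) i) j⟩

/-- the parallel dual of `B`: `s (w⁻¹ B w⁻ᵀ)ᴴ s` -/
def Bd (w s B : Chart d X → Cm d → Matrix (Fin d) (Fin d) ℂ) :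
    Chart d X → Cm d → Matrix (Fin d) (Fin d) ℂ :=
  fun e z => s e z * (tm w B e z)ᴴ * s e z

omit [T2Space X] [CompactSpace X] [IsManifold 𝓘(ℂ, Cm d) ω X] in
lemma MC_tm (hw : IsKahler w) (hB : IsHol2 B) (hx : At e x) : MC 1 (tm w B e) (e x) := by
  have g0 := (hw.posDef e x hx).det_pos.ne'
  have hG : MC 1 (w e) (e x) := (hw.toIsHermitian.smooth e x hx · · |>.of_le (by norm_cast))
  exact ((hG.inv g0).mul (hB.mc hx)).mul (MC_dual hG g0)

omit [T2Space X] [CompactSpace X] in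
lemma tm_change (hw : IsKahler w) (hB : IsHol2 B) {e' : Chart d X} (hx : At e x) (hx' : At e' x) :
    (tm w B e (e x))ᴴ = (jacM e e' x)⁻¹ * (tm w B e' (e' x))ᴴ * ((jacM e e' x)⁻¹)ᵀ := by
  have hJu : IsUnit (jacM e e' x).det := jacM_isUnit hx hx'
  have hw1 := hw.change e e' x hx hx'
  have hB1 := hB.change e e' x hx hx'
  set J := jacM e e' x with hJ
  have hwi : (w e (e x))⁻¹ = (J.map (starRingEnd ℂ))⁻¹ * (w e' (e' x))⁻¹ * (Jᵀ)⁻¹ := by
    rw [hw1, inv_form hJu]
  have hd : dual (w e) (e x) = J⁻¹ * dual (w e') (e' x) * (J⁻¹)ᴴ := by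
    unfold dual
    rw [hw1, inv_form hJu]
    simp only [Matrix.transpose_mul, Matrix.transpose_nonsing_inv, Matrix.transpose_transpose,
      Matrix.mul_assoc]
    congr 3
    rw [Matrix.conjTranspose_nonsing_inv]
    rfl
  have key : ∀ (e : Chart d X), At e x → (tm w B e (e x))ᴴ =
      dual (w e) (e x) * (B e (e x))ᴴ * (w e (e x))⁻¹ := by
    intro e hx
    unfold tm
    rw [Matrix.conjTranspose_mul, Matrix.conjTranspose_mul,
      (dual_posDef (hw.posDef e x hx)).isHermitian.eq, (hw.posDef e x hx).inv.isHermitian.eq,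
      Matrix.mul_assoc]
  have h1 : (B e (e x))ᴴ = Jᴴ * (B e' (e' x))ᴴ * J.map (starRingEnd ℂ) := by
    rw [hB1]
    simp only [Matrix.conjTranspose_mul, Matrix.mul_assoc]
    rfl
  have h2 : (J⁻¹)ᴴ * Jᴴ = 1 := by
    rw [← Matrix.conjTranspose_mul, Matrix.mul_nonsing_inv _ hJu, Matrix.conjTranspose_one]
  have h3 : J.map (starRingEnd ℂ) * (J.map (starRingEnd ℂ))⁻¹ = 1 :=
    Matrix.mul_nonsing_inv _ (isUnit_conj hJu)
  rw [key e hx, key e' hx', hd, h1, hwi]
  calc J⁻¹ * dual (w e') (e' x) * (J⁻¹)ᴴ * (Jᴴ * (B e' (e' x))ᴴ * J.map (starRingEnd ℂ)) *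
        ((J.map (starRingEnd ℂ))⁻¹ * (w e' (e' x))⁻¹ * (Jᵀ)⁻¹)
      = J⁻¹ * dual (w e') (e' x) * ((J⁻¹)ᴴ * Jᴴ) * (B e' (e' x))ᴴ *
        (J.map (starRingEnd ℂ) * (J.map (starRingEnd ℂ))⁻¹) * (w e' (e' x))⁻¹ * (Jᵀ)⁻¹ := by
        simp only [Matrix.mul_assoc]
    _ = _ := by
        rw [h2, h3]
        simp only [Matrix.mul_assoc, Matrix.mul_one, Matrix.one_mul, Matrix.transpose_nonsing_inv]

theorem IsHol2.bd (hs : IsHol2 s) (hw : IsKahler w) (hric : D.RicNonneg w) (hB : IsHol2 B) :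
    IsHol2 (Bd w s B) where
  holo e x hx i j := by
    have one : (1 : WithTop ℕ∞) ≠ 0 := by norm_num
    refine an_of (fun e x hx => ?_) hx i j
    have h1 := MC_tm hw hB hx
    have hS : MC 1 (s e) (e x) := hs.mc hx
    refine ⟨(hS.mul h1.conjTranspose).mul hS, fun l => ?_⟩
    unfold Bd
    rw [DMb_mul ((hS.mul h1.conjTranspose).md one) (hS.md one), DMb_mul (hS.md one)
      (h1.conjTranspose.md one), DMb_conjTranspose (h1.md one), hB.DM_tm hw hric hx, hs.dmb hx]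
    simp
  change e e' x hx hx' := by
    have hJu : IsUnit (jacM e e' x).det := jacM_isUnit hx hx'
    have hs1 := hs.change e e' x hx hx'
    have ht := tm_change hw hB hx hx'
    unfold Bd
    set J := jacM e e' x with hJ
    have h1 : J * J⁻¹ = 1 := Matrix.mul_nonsing_inv _ hJu
    have h2 : (J⁻¹)ᵀ * Jᵀ = 1 := by rw [← Matrix.transpose_mul, h1, Matrix.transpose_one]
    rw [ht, hs1]
    calc Jᵀ * s e' (e' x) * J * (J⁻¹ * (tm w B e' (e' x))ᴴ * (J⁻¹)ᵀ) * (Jᵀ * s e' (e' x) * J)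
        = Jᵀ * s e' (e' x) * (J * J⁻¹) * (tm w B e' (e' x))ᴴ * ((J⁻¹)ᵀ * Jᵀ) * s e' (e' x) * J := by
          simp only [Matrix.mul_assoc]
      _ = _ := by rw [h1, h2]; simp only [Matrix.mul_assoc, Matrix.mul_one, Matrix.one_mul]

/-! ### symmetric tensors -/

/-- the symmetric holomorphic tensors -/
def IsSymT (B : Chart d X → Cm d → Matrix (Fin d) (Fin d) ℂ) : Prop :=
  ∀ e x, At e x → (B e (e x))ᵀ = B e (e x)

omit [T2Space X] [CompactSpace X] [IsManifold 𝓘(ℂ, Cm d) ω X] in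
lemma tm_symm (hw : IsKahler w) (hB : IsSymT B) (hx : At e x) :
    ((tm w B e (e x))ᴴ)ᵀ = (tm w B e (e x))ᴴ := by
  have h1 : (tm w B e (e x))ᵀ = tm w B e (e x) := by
    unfold tm dual
    rw [Matrix.transpose_mul, Matrix.transpose_mul, hB e x hx, Matrix.transpose_transpose,
      Matrix.mul_assoc]
  ext i j
  have := congrFun (congrFun h1 i) j
  simp only [Matrix.transpose_apply, Matrix.conjTranspose_apply] at this ⊢
  rw [this]

end Vale.Agent.P301.H599.BE
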