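import Vale.Agent.P301.H599.BE.Curv
import Vale.Agent.P211.HK.FBloc
import Vale.Agent.P272.K.Inv.Chart

/-!
# P301: local parallel `1`-forms of a flat Kähler metric
-/

open scoped Manifold ContDiff ComplexOrder Topology Matrix
open Set Filter Metric
open Vale.Agent.P272.K Vale.Agent.P272.K.C2 Vale.Agent.P272.K.AMP
open Vale.Agent.P299 Vale.Agent.P299.H954 Vale.Agent.P301.H599 Vale.Agent.P301.H450

set_option maxSynthPendingDepth 3
set_option linter.all false

noncomputable section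

namespace Vale.Agent.P301.H599.BE

variable {d : ℕ}

/-- arrays of Christoffel symbols -/
abbrev G3 (d : ℕ) : Type := Fin d → Fin d → Fin d → ℂ

/-- `a ↦ -Σ_k u_k G_k a` -/
def L00 (G : G3 d) (u : Cm d) : Cm d →ₗ[ℝ] Cm d where
  toFun := fun a i => -∑ k, ∑ j, u k * G k i j * a j
  map_add' := fun a b => by
    ext i
    simp only [Pi.add_apply, mul_add, Finset.sum_add_distrib]
    ring
  map_smul' := fun c a => by
    ext i
    simp only [Pi.smul_apply, RingHom.id_apply, smul_neg, Finset.smul_sum]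
    congr 1
    refine Finset.sum_congr rfl fun k _ => Finset.sum_congr rfl fun j _ => ?_
    simp only [Complex.real_smul]
    ring

lemma L00_apply (G : G3 d) (u a : Cm d) (i : Fin d) :
    L00 G u a i = -∑ k, ∑ j, u k * G k i j * a j := rfl

/-- `u ↦ a ↦ -Σ_k u_k G_k a` -/
def L01 (G : G3 d) : Cm d →ₗ[ℝ] (Cm d →L[ℝ] Cm d) where
  toFun := fun u => LinearMap.toContinuousLinearMap (L00 G u)
  map_add' := fun u v => by
    ext a i
    simp only [LinearMap.coe_toContinuousLinearMap', _root_.add_apply, Pi.add_apply, L00_apply,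
      add_mul, Finset.sum_add_distrib]
    ring
  map_smul' := fun c u => by
    ext a i
    simp only [LinearMap.coe_toContinuousLinearMap', _root_.smul_apply, Pi.smul_apply, L00_apply,
      RingHom.id_apply, smul_neg, Finset.smul_sum]
    congr 1
    refine Finset.sum_congr rfl fun k _ => Finset.sum_congr rfl fun j _ => ?_
    simp only [Complex.real_smul]
    ring

lemma L01_apply (G : G3 d) (u a : Cm d) (i : Fin d) :
    L01 G u a i = -∑ k, ∑ j, u k * G k i j * a j := rfl

/-- `G ↦ u ↦ a ↦ -Σ_k u_k G_k a` -/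
def L02 (d : ℕ) : G3 d →ₗ[ℝ] (Cm d →L[ℝ] Cm d →L[ℝ] Cm d) where
  toFun := fun G => LinearMap.toContinuousLinearMap (L01 G)
  map_add' := fun G H => by
    ext u a i
    simp only [LinearMap.coe_toContinuousLinearMap', _root_.add_apply, Pi.add_apply, L01_apply,
      add_mul, mul_add, Finset.sum_add_distrib]
    ring
  map_smul' := fun c G => by
    ext u a i
    simp only [LinearMap.coe_toContinuousLinearMap', _root_.smul_apply, Pi.smul_apply, L01_apply,
      RingHom.id_apply, smul_neg, Finset.smul_sum]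
    congr 1
    refine Finset.sum_congr rfl fun k _ => Finset.sum_congr rfl fun j _ => ?_
    simp only [Complex.real_smul]
    ring

/-- `L0 G u a = -Σ_k u_k G_k a` -/
def L0 (d : ℕ) : G3 d →L[ℝ] (Cm d →L[ℝ] Cm d →L[ℝ] Cm d) :=
  LinearMap.toContinuousLinearMap (L02 d)

theorem L0_apply (G : G3 d) (u a : Cm d) (i : Fin d) :
    L0 d G u a i = -∑ k, ∑ j, u k * G k i j * a j := rfl

/-- as matrices -/
theorem L0_mat (M : Fin d → Matrix (Fin d) (Fin d) ℂ) (u a : Cm d) :
    L0 d (fun k i j => M k i j) u a = -((∑ k, u k • M k) *ᵥ a) := by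
  funext i
  rw [L0_apply, Pi.neg_apply, Matrix.mulVec, dotProduct, Finset.sum_comm]
  congr 1
  refine Finset.sum_congr rfl fun j _ => ?_
  rw [Matrix.sum_apply, Finset.sum_mul]
  refine Finset.sum_congr rfl fun k _ => ?_
  rw [Matrix.smul_apply, smul_eq_mul]

variable {w : Cm d → Matrix (Fin d) (Fin d) ℂ} {z : Cm d}

/-- `∂_l Γ_k - ∂_k Γ_l = Γ_l Γ_k - Γ_k Γ_l` -/
theorem DM_Gm_comm (hG : MC 2 w z) (g0 : (w z).det ≠ 0) (k l : Fin d) :
    DM l (Gm w k) z - DM k (Gm w l) z = Gm w l z * Gm w k z - Gm w k z * Gm w l z := by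
  have one : (1 : WithTop ℕ∞) ≠ 0 := by norm_num
  have h1 : MC 1 w z := hG.mono (by norm_num)
  have hD : ∀ k, MC 1 (DM k w) z := fun k => hG.DM (by norm_num)
  have hI : MC 1 (fun y => (w y)⁻¹) z := h1.inv g0
  have e1 : ∀ k l, DM l (Gm w k) z = DM l (DM k w) z * (w z)⁻¹ - Gm w k z * Gm w l z := by
    intro k l
    have : Gm w k = fun y => DM k w y * (w y)⁻¹ := rfl
    rw [this, DM_mul ((hD k).md one) (hI.md one), DM_inv h1 g0]
    unfold Gm
    rw [Matrix.mul_neg, ← sub_eq_add_neg]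
    simp only [Matrix.mul_assoc]
  have e2 : DM l (DM k w) z = DM k (DM l w) z := by
    ext i j
    exact dz_dz_comm (hG i j)
  rw [e1, e1, e2]
  abel

/-- the connection form -/
def conA (w : Cm d → Matrix (Fin d) (Fin d) ℂ) (z : Cm d) : Cm d →L[ℝ] Cm d →L[ℝ] Cm d :=
  L0 d fun k i j => Gm w k z i j

theorem conA_apply (z u a : Cm d) : conA w z u a = -((∑ k, u k • Gm w k z) *ᵥ a) := L0_mat _ u a

theorem contDiffAt_conA (hG : ∀ k, MC ∞ (Gm w k) z) : ContDiffAt ℝ ∞ (conA w) z :=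
  (L0 d).contDiff.contDiffAt.comp z (contDiffAt_pi.2 fun k => contDiffAt_pi.2 fun i =>
    contDiffAt_pi.2 fun j => hG k i j)

theorem fderiv_conA (hG : ∀ k, MC 1 (Gm w k) z) (hf : ∀ k l, DMb l (Gm w k) z = 0) (u v a : Cm d) :
    fderiv ℝ (conA w) z u v a = -((∑ k, v k • ∑ l, u l • DM l (Gm w k) z) *ᵥ a) := by
  have hd : ∀ k i j, DifferentiableAt ℝ (fun y => Gm w k y i j) z := fun k i j =>
    (hG k i j).differentiableAt (by norm_num)
  have h1 : HasFDerivAt (fun y => fun k i j => Gm w k y i j : Cm d → G3 d)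
      (ContinuousLinearMap.pi fun k => ContinuousLinearMap.pi fun i => ContinuousLinearMap.pi fun j =>
        fderiv ℝ (fun y => Gm w k y i j) z) z :=
    hasFDerivAt_pi.2 fun k => hasFDerivAt_pi.2 fun i => hasFDerivAt_pi.2 fun j =>
      (hd k i j).hasFDerivAt
  have h2 := (L0 d).hasFDerivAt.comp z h1
  have h3 : fderiv ℝ (conA w) z = _ := h2.fderiv
  rw [h3]
  show L0 d (fun k i j => fderiv ℝ (fun y => Gm w k y i j) z u) v a = _
  have h4 : (fun k i j => fderiv ℝ (fun y => Gm w k y i j) z u : G3 d) =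
      fun k i j => (∑ l, u l • DM l (Gm w k) z) i j := by
    funext k i j
    rw [fderiv_eq, Matrix.sum_apply]
    refine Finset.sum_congr rfl fun l _ => ?_
    have h5 : dzb l (fun y => Gm w k y i j) z = 0 := congrFun (congrFun (hf k l) i) j
    rw [h5, zero_mul, add_zero, Matrix.smul_apply, smul_eq_mul, mul_comm]
    rfl
  rw [h4, L0_mat]

theorem conA_flat (hw : MC 2 w z) (g0 : (w z).det ≠ 0) (hG : ∀ k, MC 1 (Gm w k) z)
    (hf : ∀ k l, DMb l (Gm w k) z = 0) (u v : Cm d) :
    fderiv ℝ (conA w) z u v - fderiv ℝ (conA w) z v u +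
      (conA w z u).comp (conA w z v) - (conA w z v).comp (conA w z u) = 0 := by
  ext1 a
  simp only [_root_.add_apply, _root_.sub_apply, ContinuousLinearMap.comp_apply,
    _root_.zero_apply]
  rw [fderiv_conA hG hf, fderiv_conA hG hf]
  have e0 : ∀ u v : Cm d, conA w z u (conA w z v a) =
      ((∑ l, ∑ k, (u l * v k) • (Gm w l z * Gm w k z)) *ᵥ a) := by
    intro u v
    rw [conA_apply, conA_apply, Matrix.mulVec_neg, neg_neg, Matrix.mulVec_mulVec]
    congr 1
    rw [Finset.sum_mul]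
    refine Finset.sum_congr rfl fun l _ => ?_
    rw [Finset.mul_sum]
    refine Finset.sum_congr rfl fun k _ => ?_
    rw [Matrix.smul_mul, Matrix.mul_smul, smul_smul]
  rw [e0, e0]
  have e1 : ∀ u v : Cm d, (∑ k, v k • ∑ l, u l • DM l (Gm w k) z) =
      ∑ l, ∑ k, (u l * v k) • DM l (Gm w k) z := by
    intro u v
    rw [Finset.sum_comm]
    refine Finset.sum_congr rfl fun k _ => ?_
    rw [Finset.smul_sum]
    refine Finset.sum_congr rfl fun l _ => ?_
    rw [smul_smul, mul_comm]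
  rw [e1, e1]
  have e2 : (∑ l, ∑ k, (v l * u k) • DM l (Gm w k) z) =
      ∑ l, ∑ k, (u l * v k) • DM k (Gm w l) z := by
    rw [Finset.sum_comm]
    refine Finset.sum_congr rfl fun l _ => Finset.sum_congr rfl fun k _ => ?_
    rw [mul_comm]
  have e3 : (∑ l, ∑ k, (v l * u k) • (Gm w l z * Gm w k z)) =
      ∑ l, ∑ k, (u l * v k) • (Gm w k z * Gm w l z) := by
    rw [Finset.sum_comm]
    refine Finset.sum_congr rfl fun l _ => Finset.sum_congr rfl fun k _ => ?_
    rw [mul_comm]
  rw [e2, e3, ← Matrix.neg_mulVec, ← Matrix.neg_mulVec, ← Matrix.sub_mulVec, ← Matrix.add_mulVec,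
    ← Matrix.sub_mulVec]
  have e4 : -(∑ l, ∑ k, (u l * v k) • DM l (Gm w k) z) - -(∑ l, ∑ k, (u l * v k) • DM k (Gm w l) z) +
      (∑ l, ∑ k, (u l * v k) • (Gm w l z * Gm w k z)) -
      (∑ l, ∑ k, (u l * v k) • (Gm w k z * Gm w l z)) = 0 := by
    simp only [← Finset.sum_neg_distrib, ← Finset.sum_sub_distrib, ← Finset.sum_add_distrib]
    refine Finset.sum_eq_zero fun l _ => Finset.sum_eq_zero fun k _ => ?_
    rw [← smul_neg, ← smul_neg, ← smul_sub, ← smul_add, ← smul_sub]
    have := DM_Gm_comm hw g0 k l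
    have h6 : -DM l (Gm w k) z - -DM k (Gm w l) z + Gm w l z * Gm w k z - Gm w k z * Gm w l z =
        0 := by
      rw [show -DM l (Gm w k) z - -DM k (Gm w l) z = -(DM l (Gm w k) z - DM k (Gm w l) z) by abel,
        this]
      abel
    rw [h6, smul_zero]
  rw [e4, Matrix.zero_mulVec]

end Vale.Agent.P301.H599.BE
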