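import Vale.Agent.P301.H599.BE.Loc

/-!
# P301: parallel `1`-forms in a chart
-/

open scoped Manifold ContDiff ComplexOrder Topology Matrix
open Set Filter Metric
open Vale.Agent.P272.K Vale.Agent.P272.K.C2 Vale.Agent.P272.K.AMP
open Vale.Agent.P299 Vale.Agent.P299.H954 Vale.Agent.P301.H599 Vale.Agent.P301.H450

set_option maxSynthPendingDepth 3
set_option linter.all false

noncomputable section

namespace Vale.Agent.P301.H599.BE

variable {d : ℕ} {w : Cm d → Matrix (Fin d) (Fin d) ℂ} {z : Cm d} {f g : Cm d → Cm d}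

/-- the `1`-form with components `f` is parallel at `z` (holomorphic, with antiholomorphic dual) -/
def ParC (w : Cm d → Matrix (Fin d) (Fin d) ℂ) (f : Cm d → Cm d) (z : Cm d) : Prop :=
  DifferentiableAt ℂ f z ∧ DifferentiableAt ℂ (fun y => star ((w y)⁻¹ *ᵥ f y)) z

theorem ParC.congr (h : ParC w f z) (hfg : f =ᶠ[𝓝 z] g) : ParC w g z :=
  ⟨h.1.congr_of_eventuallyEq hfg.symm, h.2.congr_of_eventuallyEq (by
    filter_upwards [hfg] with y hy
    rw [hy])⟩

theorem ParC.sub (h : ParC w f z) (h' : ParC w g z) : ParC w (fun y => f y - g y) z :=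
  ⟨h.1.sub h'.1, (h.2.sub h'.2).congr_of_eventuallyEq (by
    filter_upwards with y
    rw [Matrix.mulVec_sub, star_sub]
    rfl)⟩

lemma dz_of_lin' {f : Cm d → ℂ} {c : Fin d → ℂ} (h : ∀ u, fderiv ℝ f z u = ∑ m, u m * c m)
    (l : Fin d) : dz l f z = c l ∧ dzb l f z = 0 := by
  have h1 : fderiv ℝ f z (Pi.single l 1) = c l := by
    rw [h, Finset.sum_eq_single l]
    · simp
    · intro b _ hb; simp [hb]
    · simp
  have h2 : fderiv ℝ f z (Pi.single l Complex.I) = Complex.I * c l := by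
    rw [h, Finset.sum_eq_single l]
    · simp
    · intro b _ hb; simp [hb]
    · simp
  unfold dz dzb
  rw [h1, h2]
  have := Complex.I_mul_I
  constructor
  · linear_combination (-(c l) / 2) * this
  · linear_combination ((c l) / 2) * this

/-- solutions of the parallel transport equation are parallel -/
theorem parC_of_hasFDerivAt {Y : Cm d → Cm d} (hw : MC 1 w z) (g0 : (w z).det ≠ 0)
    (hY : ∀ᶠ y in 𝓝 z, HasFDerivAt Y (-(conA w y).flip (Y y)) y) : ParC w Y z := by
  have hcomp : ∀ y, HasFDerivAt Y (-(conA w y).flip (Y y)) y → ∀ i u,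
      fderiv ℝ (fun y => Y y i) y u = ∑ m, u m * (Gm w m y *ᵥ Y y) i := by
    intro y hy i u
    have h1 := (hasFDerivAt_pi'.1 hy i).fderiv
    rw [h1]
    show (-(conA w y).flip (Y y)) u i = _
    rw [_root_.neg_apply, ContinuousLinearMap.flip_apply, conA_apply, neg_neg, Matrix.sum_mulVec,
      Finset.sum_apply]
    refine Finset.sum_congr rfl fun k _ => ?_
    rw [Matrix.smul_mulVec, Pi.smul_apply, smul_eq_mul]
  have hz := hY.self_of_nhds
  have hdr : ∀ i, DifferentiableAt ℝ (fun y => Y y i) z := fun i =>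
    differentiableAt_pi.1 hz.differentiableAt i
  have hd : ∀ i l, dz l (fun y => Y y i) z = (Gm w l z *ᵥ Y z) i ∧ dzb l (fun y => Y y i) z = 0 :=
    fun i l => dz_of_lin' (c := fun m => (Gm w m z *ᵥ Y z) i) (fun u => hcomp z hz i u) l
  refine ⟨differentiableAt_pi.2 fun i => differentiableAt_of_dzb (hdr i) fun l => (hd i l).2, ?_⟩
  have hI : MC 1 (fun y => (w y)⁻¹) z := hw.inv g0
  have hgd : ∀ i, DifferentiableAt ℝ (fun y => ((w y)⁻¹ *ᵥ Y y) i) z := by
    intro i
    have : (fun y => ((w y)⁻¹ *ᵥ Y y) i) = fun y => ∑ j, (w y)⁻¹ i j * Y y j := rfl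
    rw [this]
    refine DifferentiableAt.fun_sum fun j _ => ?_
    exact ((hI i j).differentiableAt (by norm_num)).mul (hdr j)
  have hgz : ∀ i l, dz l (fun y => ((w y)⁻¹ *ᵥ Y y) i) z = 0 := by
    intro i l
    have e1 : (fun y => ((w y)⁻¹ *ᵥ Y y) i) = fun y => ∑ j, (w y)⁻¹ i j * Y y j := rfl
    have hh : ∀ j ∈ (Finset.univ : Finset (Fin d)),
        DifferentiableAt ℝ (fun y => (w y)⁻¹ i j * Y y j) z := fun j _ =>
      ((hI i j).differentiableAt (by norm_num)).mul (hdr j)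
    rw [e1, dz_sum l _ hh]
    have e2 : ∀ j, dz l (fun y => (w y)⁻¹ i j * Y y j) z =
        DM l (fun y => (w y)⁻¹) z i j * Y z j + (w z)⁻¹ i j * (Gm w l z *ᵥ Y z) j := by
      intro j
      rw [dz_mul l ((hI i j).differentiableAt (by norm_num)) (hdr j), (hd j l).1]
      rfl
    simp only [e2, Finset.sum_add_distrib]
    have e3 : (∑ j, DM l (fun y => (w y)⁻¹) z i j * Y z j) =
        (DM l (fun y => (w y)⁻¹) z *ᵥ Y z) i := rfl
    have e4 : (∑ j, (w z)⁻¹ i j * (Gm w l z *ᵥ Y z) j) = ((w z)⁻¹ *ᵥ (Gm w l z *ᵥ Y z)) i := rfl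
    rw [e3, e4, DM_inv hw g0, Matrix.mulVec_mulVec, Matrix.neg_mulVec, Pi.neg_apply, Gm,
      ← Matrix.mul_assoc]
    exact neg_add_cancel _
  refine differentiableAt_pi.2 fun i => ?_
  show DifferentiableAt ℂ (fun y => (starRingEnd ℂ) (((w y)⁻¹ *ᵥ Y y) i)) z
  refine differentiableAt_of_dzb ?_ fun l => ?_
  · exact (Complex.conjCLE.differentiableAt (𝕜 := ℝ)).comp z (hgd i)
  · rw [dzb_conj l (hgd i), hgz i l, map_zero]

/-- local existence -/
theorem exists_sol {p : Cm d} {r : ℝ} (hr : 0 < r) (hw : ∀ z ∈ ball p r, MC ∞ w z)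
    (g0 : ∀ z ∈ ball p r, (w z).det ≠ 0) (hf : ∀ z ∈ ball p r, ∀ k l, DMb l (Gm w k) z = 0)
    (v : Cm d) : ∃ Y : Cm d → Cm d, Y p = v ∧ ∀ z ∈ ball p (r / 2), ParC w Y z := by
  have hG : ∀ z ∈ ball p r, ∀ k, MC ∞ (Gm w k) z := fun z hz k =>
    ((hw z hz).DM (by exact le_rfl)).mul ((hw z hz).inv (g0 z hz))
  obtain ⟨Y, h1, -, h3⟩ := Vale.Agent.P211.HK.FB.flat_local (A := conA w) hr
    (fun z hz => (contDiffAt_conA (hG z hz)).contDiffWithinAt)
    (fun z hz u v => conA_flat ((hw z hz).mono (by norm_cast)) (g0 z hz)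
      (fun k => (hG z hz k).mono (by norm_cast)) (hf z hz) u v) v
  refine ⟨Y, h1, fun z hz => ?_⟩
  have hz' : z ∈ ball p r := ball_subset_ball (by linarith) hz
  exact parC_of_hasFDerivAt ((hw z hz').mono (by norm_cast)) (g0 z hz')
    (by filter_upwards [isOpen_ball.mem_nhds hz] with y hy using h3 y hy)

/-- a real valued holomorphic function is locally constant -/
theorem const_of_real {F : Cm d → ℂ} (h : ∀ᶠ y in 𝓝 z, DifferentiableAt ℂ F y)
    (hr : ∀ᶠ y in 𝓝 z, (starRingEnd ℂ) (F y) = F y) : ∀ᶠ y in 𝓝 z, F y = F z := by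
  obtain ⟨ρ, hρ, hb⟩ := Metric.eventually_nhds_iff_ball.1 (h.and hr)
  have hfd : ∀ y ∈ ball z ρ, fderiv ℝ F y = 0 := by
    intro y hy
    have h1 : DifferentiableAt ℝ F y := (hb y hy).1.restrictScalars ℝ
    have h2 : ∀ l, dzb l F y = 0 := fun l => Vale.Agent.P272.K.dzb_of_holo (hb y hy).1
    have h3 : ∀ l, dz l F y = 0 := by
      intro l
      have h4 : (fun y => (starRingEnd ℂ) (F y)) =ᶠ[𝓝 y] F := by
        filter_upwards [isOpen_ball.mem_nhds hy] with t ht using (hb t ht).2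
      rw [← dz_congr l h4, dz_conj l h1, h2 l, map_zero]
    ext u
    rw [fderiv_eq]
    simp [h2, h3]
  filter_upwards [ball_mem_nhds z hρ] with y hy
  exact (convex_ball z ρ).is_const_of_fderivWithin_eq_zero (𝕜 := ℝ)
    (fun t ht => ((hb t ht).1.restrictScalars ℝ).differentiableWithinAt)
    (fun t ht => by rw [fderivWithin_of_isOpen isOpen_ball ht, hfd t ht]) hy (mem_ball_self hρ)

/-- a parallel form which vanishes at a point vanishes near the point -/
theorem parC_zero (hw : ∀ᶠ y in 𝓝 z, (w y).PosDef) (h : ∀ᶠ y in 𝓝 z, ParC w f y)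
    (h0 : f z = 0) : ∀ᶠ y in 𝓝 z, f y = 0 := by
  set F : Cm d → ℂ := fun y => ∑ i, f y i * star ((w y)⁻¹ *ᵥ f y) i with hF
  have hFN : ∀ y, F y = f y ⬝ᵥ star ((w y)⁻¹ *ᵥ f y) := fun y => rfl
  have hd : ∀ᶠ y in 𝓝 z, DifferentiableAt ℂ F y := by
    filter_upwards [h] with y hy
    exact DifferentiableAt.fun_sum fun i _ =>
      (differentiableAt_pi.1 hy.1 i).mul (differentiableAt_pi.1 hy.2 i)
  have hconj : ∀ y, (starRingEnd ℂ) (F y) = star (f y) ⬝ᵥ ((w y)⁻¹ *ᵥ f y) := by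
    intro y
    rw [hFN, ← starRingEnd_apply, dotProduct, map_sum, dotProduct]
    refine Finset.sum_congr rfl fun i _ => ?_
    rw [map_mul]
    simp
  have hr : ∀ᶠ y in 𝓝 z, (starRingEnd ℂ) (F y) = F y := by
    filter_upwards [hw] with y hy
    have h1 := hy.inv.posSemidef.dotProduct_mulVec_nonneg (f y)
    have h2 : (starRingEnd ℂ) ((starRingEnd ℂ) (F y)) = (starRingEnd ℂ) (F y) := by
      rw [hconj]
      exact Complex.conj_eq_iff_im.2 (Complex.le_def.1 h1).2.symm
    rw [Complex.conj_conj] at h2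
    exact h2.symm
  have hc := const_of_real hd hr
  have hz0 : F z = 0 := by simp [hFN, h0]
  filter_upwards [hc, hw] with y hy hwy
  by_contra hne
  have h1 := hwy.inv.dotProduct_mulVec_pos hne
  rw [← hconj, hy, hz0, map_zero] at h1
  exact lt_irrefl _ h1

end Vale.Agent.P301.H599.BE
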