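import Vale.Agent.P301.H599.BE.Hol2
import Vale.Agent.P299.H954.PosSum

/-!
# P301: a nonzero symmetric holomorphic tensor gives a nondegenerate one
-/

open scoped Manifold ContDiff ComplexOrder Topology Matrix
open Vale.Agent.P272.K Vale.Agent.P272.K.C2 Vale.Agent.P272.K.AMP
open Vale.Agent.P299 Vale.Agent.P299.H954 Vale.Agent.P301.H599 Vale.Agent.P301.H450

set_option linter.all false

noncomputable section

namespace Vale.Agent.P301.H599.BE

variable {d : ℕ} {X : Type} [TopologicalSpace X] [ChartedSpace (Cm d) X]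
  {w w0 s B B' : Chart d X → Cm d → Matrix (Fin d) (Fin d) ℂ} {e : Chart d X} {x : X}

theorem IsHol2.add (hB : IsHol2 B) (hB' : IsHol2 B') : IsHol2 (fun e z => B e z + B' e z) where
  holo e x hx i j := (hB.holo e x hx i j).add (hB'.holo e x hx i j)
  change e e' x hx hx' := by
    rw [hB.change e e' x hx hx', hB'.change e e' x hx hx', Matrix.mul_add, Matrix.add_mul]

theorem IsHol2.sub (hB : IsHol2 B) (hB' : IsHol2 B') : IsHol2 (fun e z => B e z - B' e z) where
  holo e x hx i j := (hB.holo e x hx i j).sub (hB'.holo e x hx i j)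
  change e e' x hx hx' := by
    rw [hB.change e e' x hx hx', hB'.change e e' x hx hx', Matrix.mul_sub, Matrix.sub_mul]

lemma s_transpose (hs : IsHolTwoForm s) (hx : At e x) : (s e (e x))ᵀ = -s e (e x) := hs.alt e x hx

lemma s_inv_transpose (hs : IsHolTwoForm s) (hn : (s e (e x)).det ≠ 0) (hx : At e x) :
    ((s e (e x))⁻¹)ᵀ = -(s e (e x))⁻¹ := by
  rw [Matrix.transpose_nonsing_inv, s_transpose hs hx]
  refine Matrix.inv_eq_right_inv ?_
  rw [neg_mul_neg]
  exact Matrix.mul_nonsing_inv _ (isUnit_iff_ne_zero.2 hn)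

variable [IsManifold 𝓘(ℂ, Cm d) ω X]

/-- `B s⁻¹ B` is a holomorphic `2`-form if `B` is symmetric -/
theorem isHolTwoForm_sq (hs : IsHolTwoForm s) (hn : ∀ e x, At e x → (s e (e x)).det ≠ 0)
    (hB : IsHol2 B) (hsym : IsSymT B) : IsHolTwoForm fun e z => B e z * (s e z)⁻¹ * B e z where
  holo e x hx i j := by
    have one : (1 : WithTop ℕ∞) ≠ 0 := by norm_num
    refine an_of (B := fun e z => B e z * (s e z)⁻¹ * B e z) (fun e x hx => ?_) hx i j
    have hS : MC 1 (s e) (e x) := (IsHol2.of_two hs).mc hx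
    have hI : MC 1 (fun y => (s e y)⁻¹) (e x) := hS.inv (hn e x hx)
    have hBm : MC 1 (B e) (e x) := hB.mc hx
    refine ⟨(hBm.mul hI).mul hBm, fun l => ?_⟩
    rw [DMb_mul ((hBm.mul hI).md one) (hBm.md one), DMb_mul (hBm.md one) (hI.md one),
      DMb_inv hS (hn e x hx), hB.dmb hx, (IsHol2.of_two hs).dmb hx]
    simp
  alt e x hx := by
    rw [Matrix.transpose_mul, Matrix.transpose_mul, hsym e x hx,
      s_inv_transpose hs (hn e x hx) hx, Matrix.neg_mul, Matrix.mul_neg, Matrix.mul_assoc]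
  change e e' x hx hx' := by
    have hJu : IsUnit (jacM e e' x).det := jacM_isUnit hx hx'
    have hJt : IsUnit ((jacM e e' x)ᵀ).det := by rwa [Matrix.det_transpose]
    rw [hB.change e e' x hx hx', hs.change e e' x hx hx']
    set J := jacM e e' x with hJ
    have h1 : J * J⁻¹ = 1 := Matrix.mul_nonsing_inv _ hJu
    have h2 : (Jᵀ)⁻¹ * Jᵀ = 1 := Matrix.nonsing_inv_mul _ hJt
    rw [Matrix.mul_inv_rev, Matrix.mul_inv_rev]
    calc Jᵀ * B e' (e' x) * J * (J⁻¹ * ((s e' (e' x))⁻¹ * (Jᵀ)⁻¹)) * (Jᵀ * B e' (e' x) * J)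
        = Jᵀ * B e' (e' x) * (J * J⁻¹) * (s e' (e' x))⁻¹ * ((Jᵀ)⁻¹ * Jᵀ) * B e' (e' x) * J := by
          simp only [Matrix.mul_assoc]
      _ = _ := by rw [h1, h2]; simp only [Matrix.mul_assoc, Matrix.mul_one, Matrix.one_mul]

theorem sq_scalar (h : IsSymplectic d X w0 s) (hB : IsHol2 B) (hsym : IsSymT B) :
    ∃ c : ℂ, ∀ e x, At e x → B e (e x) * (s e (e x))⁻¹ * B e (e x) = c • s e (e x) :=
  h.unique _ (isHolTwoForm_sq h.form h.nondeg hB hsym)

lemma det_of_sq (h : IsSymplectic d X w0 s) {c : ℂ} (hc : c ≠ 0)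
    (hcB : ∀ e x, At e x → B e (e x) * (s e (e x))⁻¹ * B e (e x) = c • s e (e x)) (hx : At e x) :
    (B e (e x)).det ≠ 0 := by
  intro h0
  have h1 := congrArg Matrix.det (hcB e x hx)
  rw [Matrix.det_mul, Matrix.det_mul, h0, zero_mul, zero_mul, Matrix.det_smul] at h1
  exact mul_ne_zero (pow_ne_zero _ hc) (h.nondeg e x hx) h1.symm

variable [T2Space X] [CompactSpace X]

omit [IsManifold 𝓘(ℂ, Cm d) ω X] [T2Space X] [CompactSpace X] in
lemma zero_of_mul {κ : Type} {A : Matrix κ (Fin d) ℂ} {M : Matrix (Fin d) (Fin d) ℂ}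
    (hM : IsUnit M.det) (h : A * M = 0) : A = 0 := by
  have h1 : A * M * M⁻¹ = 0 := by rw [h, Matrix.zero_mul]
  rwa [Matrix.mul_assoc, Matrix.mul_nonsing_inv _ hM, Matrix.mul_one] at h1

omit [IsManifold 𝓘(ℂ, Cm d) ω X] [T2Space X] [CompactSpace X] in
lemma zero_of_gram {b P : Matrix (Fin d) (Fin d) ℂ} (hP : P.PosDef) (h : b * P * bᴴ = 0) :
    b = 0 := by
  obtain ⟨C, hC⟩ := exists_factor hP.posSemidef
  have hCu : IsUnit (Cᴴ).det := by
    rw [Matrix.det_conjTranspose]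
    exact (isUnit_iff_ne_zero.2 (det_ne_zero_of_factor hP hC)).star
  have h3 : (b * Cᴴ) * (b * Cᴴ)ᴴ = 0 := by
    rw [Matrix.conjTranspose_mul, Matrix.conjTranspose_conjTranspose, ← h, hC]
    simp only [Matrix.mul_assoc]
  exact zero_of_mul hCu (Matrix.self_mul_conjTranspose_eq_zero.1 h3)

omit [IsManifold 𝓘(ℂ, Cm d) ω X] [T2Space X] [CompactSpace X] in
lemma zero_of_anti (hn : ∀ e x, At e x → (s e (e x)).det ≠ 0) (hw : (w e (e x)).PosDef)
    (hx : At e x)
    (h : B e (e x) * (s e (e x))⁻¹ * Bd w s B e (e x) +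
      Bd w s B e (e x) * (s e (e x))⁻¹ * B e (e x) = 0) : B e (e x) = 0 := by
  have hsu : IsUnit (s e (e x)).det := isUnit_iff_ne_zero.2 (hn e x hx)
  have e6 : (tm w B e (e x))ᴴ = dual (w e) (e x) * (B e (e x))ᴴ * (w e (e x))⁻¹ := by
    unfold tm
    rw [Matrix.conjTranspose_mul, Matrix.conjTranspose_mul, (dual_posDef hw).isHermitian.eq,
      hw.inv.isHermitian.eq, Matrix.mul_assoc]
  unfold Bd at h
  set b := B e (e x) with hb
  set σ := s e (e x) with hσ
  set T := (tm w B e (e x))ᴴ with hT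
  have f1 : σ⁻¹ * σ = 1 := Matrix.nonsing_inv_mul _ hsu
  have f2 : σ * σ⁻¹ = 1 := Matrix.mul_nonsing_inv _ hsu
  have e4 : b * T * σ + σ * T * b = 0 := by
    have g1 : b * σ⁻¹ * (σ * T * σ) = b * T * σ := by
      calc b * σ⁻¹ * (σ * T * σ) = b * (σ⁻¹ * σ) * T * σ := by simp only [Matrix.mul_assoc]
        _ = _ := by rw [f1, Matrix.mul_one]
    have g2 : σ * T * σ * σ⁻¹ * b = σ * T * b := by
      calc σ * T * σ * σ⁻¹ * b = σ * T * (σ * σ⁻¹) * b := by simp only [Matrix.mul_assoc]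
        _ = _ := by rw [f2, Matrix.mul_one]
    rw [← g1, ← g2]
    exact h
  have e5 : (b * T).trace = 0 := by
    have t0 : σ⁻¹ * (b * T * σ + σ * T * b) = 0 := by rw [e4, Matrix.mul_zero]
    have t1 := congrArg Matrix.trace t0
    rw [Matrix.mul_add, Matrix.trace_add, Matrix.trace_zero] at t1
    have t2 : (σ⁻¹ * (b * T * σ)).trace = (b * T).trace := by
      rw [Matrix.trace_mul_comm, Matrix.mul_assoc (b * T), f2, Matrix.mul_one]
    have t3 : (σ⁻¹ * (σ * T * b)).trace = (b * T).trace := by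
      rw [Matrix.mul_assoc σ, ← Matrix.mul_assoc σ⁻¹, f1, Matrix.one_mul, Matrix.trace_mul_comm]
    rw [t2, t3] at t1
    linear_combination (1 / 2 : ℂ) * t1
  have hP : (b * dual (w e) (e x) * bᴴ).PosSemidef :=
    (dual_posDef hw).posSemidef.mul_mul_conjTranspose_same _
  have e7 : b * dual (w e) (e x) * bᴴ * (w e (e x))⁻¹ = 0 := by
    refine mul_eq_zero_of_trace hP hw.inv.posSemidef ?_
    rw [← e5, e6]
    congr 1
    simp only [Matrix.mul_assoc]
  have hwu : IsUnit ((w e (e x))⁻¹).det := isUnit_iff_ne_zero.2 hw.inv.det_pos.ne'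
  exact zero_of_gram (dual_posDef hw) (zero_of_mul hwu e7)

omit [IsManifold 𝓘(ℂ, Cm d) ω X] [T2Space X] [CompactSpace X] in
lemma cross_zero {b b' σ : Matrix (Fin d) (Fin d) ℂ} (e1 : (b + b') * σ * (b + b') = 0)
    (e2 : (b - b') * σ * (b - b') = 0) : b * σ * b' + b' * σ * b = 0 := by
  have h : (2 : ℂ) • (b * σ * b' + b' * σ * b) = 0 := by
    have h1 : (2 : ℂ) • (b * σ * b' + b' * σ * b) =
        (b + b') * σ * (b + b') - (b - b') * σ * (b - b') := by
      rw [two_smul]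
      noncomm_ring
    rw [h1, e1, e2, sub_zero]
  exact (smul_eq_zero.1 h).resolve_left two_ne_zero

theorem exists_nondeg (h : IsSymplectic d X w0 s) (hw : IsKahler w) (hric : D.RicNonneg w)
    (hB : IsHol2 B) (hsym : IsSymT B) {e : Chart d X} {x : X} (hx : At e x)
    (hne : B e (e x) ≠ 0) :
    ∃ C : Chart d X → Cm d → Matrix (Fin d) (Fin d) ℂ, IsHol2 C ∧ IsSymT C ∧
      ∀ e x, At e x → (C e (e x)).det ≠ 0 := by
  have hs := IsHol2.of_two h.form
  have hD : IsHol2 (Bd w s B) := hs.bd hw hric hB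
  have hDs : IsSymT (Bd w s B) := by
    intro e x hx
    unfold Bd
    rw [Matrix.transpose_mul, Matrix.transpose_mul, s_transpose h.form hx, tm_symm hw hsym hx]
    simp only [Matrix.neg_mul, Matrix.mul_neg, neg_neg, Matrix.mul_assoc]
  have hp := hB.add hD
  have hm := hB.sub hD
  have hps : IsSymT (fun e z => B e z + Bd w s B e z) := fun e x hx => by
    rw [Matrix.transpose_add, hsym e x hx, hDs e x hx]
  have hms : IsSymT (fun e z => B e z - Bd w s B e z) := fun e x hx => by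
    rw [Matrix.transpose_sub, hsym e x hx, hDs e x hx]
  obtain ⟨c, hc⟩ := sq_scalar h hp hps
  obtain ⟨c', hc'⟩ := sq_scalar h hm hms
  by_cases h1 : c = 0
  · by_cases h2 : c' = 0
    · exfalso
      subst h1; subst h2
      have e1 := hc e x hx
      have e2 := hc' e x hx
      rw [zero_smul] at e1 e2
      set b := B e (e x) with hb
      set b' := Bd w s B e (e x) with hb'
      set σ := (s e (e x))⁻¹ with hσ
      have e3 : b * σ * b' + b' * σ * b = 0 := cross_zero e1 e2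
      exact hne (zero_of_anti h.nondeg (hw.posDef e x hx) hx e3)
    · exact ⟨_, hm, hms, fun e x hx => det_of_sq (B := fun e z => B e z - Bd w s B e z) h h2 hc' hx⟩
  · exact ⟨_, hp, hps, fun e x hx => det_of_sq (B := fun e z => B e z + Bd w s B e z) h h1 hc hx⟩

end Vale.Agent.P301.H599.BE
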